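import Mathlib

/-! # P227: support functions and logarithmic sums in a finite-dimensional space -/

open Set MeasureTheory Filter
open scoped ENNReal Topology

namespace Vale.Agent.P227

set_option linter.unusedSectionVars false

variable {E F : Type*} [NormedAddCommGroup E] [NormedSpace ℝ E] [FiniteDimensional ℝ E]
  [NormedAddCommGroup F] [NormedSpace ℝ F] [FiniteDimensional ℝ F]

/-- The support function, on linear functionals. -/
noncomputable def supp (K : Set E) (φ : E →ₗ[ℝ] ℝ) : ℝ := sSup (φ '' K)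

theorem cont (φ : E →ₗ[ℝ] ℝ) : Continuous φ := LinearMap.continuous_of_finiteDimensional φ

theorem le_supp {K : Set E} (hK : IsCompact K) {φ : E →ₗ[ℝ] ℝ} {x : E} (hx : x ∈ K) :
    φ x ≤ supp K φ :=
  le_csSup (hK.image (cont φ)).bddAbove (mem_image_of_mem _ hx)

theorem supp_le {K : Set E} (hne : K.Nonempty) {φ : E →ₗ[ℝ] ℝ} {c : ℝ} (h : ∀ x ∈ K, φ x ≤ c) :
    supp K φ ≤ c :=
  csSup_le (hne.image _) (forall_mem_image.2 h)

theorem exists_supp {K : Set E} (hK : IsCompact K) (hne : K.Nonempty) (φ : E →ₗ[ℝ] ℝ) :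
    ∃ x ∈ K, φ x = supp K φ := by
  obtain ⟨x, hx, h⟩ := (hK.image (cont φ)).sSup_mem (hne.image _)
  exact ⟨x, hx, h⟩

/-- A compact convex set, symmetric about the origin. -/
structure Sym (K : Set E) : Prop where
  compact : IsCompact K
  conv : Convex ℝ K
  neg : ∀ x ∈ K, -x ∈ K

theorem Sym.zero_mem {K : Set E} (h : Sym K) (hne : K.Nonempty) : (0 : E) ∈ K := by
  obtain ⟨x, hx⟩ := hne
  have := h.conv hx (h.neg x hx) (by norm_num : (0:ℝ) ≤ 1/2) (by norm_num : (0:ℝ) ≤ 1/2) (by norm_num)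
  rwa [smul_neg, add_neg_cancel] at this

theorem Sym.supp_nonneg {K : Set E} (h : Sym K) (hne : K.Nonempty) (φ : E →ₗ[ℝ] ℝ) :
    0 ≤ supp K φ := by
  simpa using le_supp h.compact (φ := φ) (h.zero_mem hne)

theorem supp_neg {K : Set E} (h : Sym K) (φ : E →ₗ[ℝ] ℝ) : supp K (-φ) = supp K φ := by
  unfold supp
  congr 1
  ext t
  constructor <;> rintro ⟨x, hx, rfl⟩ <;> exact ⟨-x, h.neg x hx, by simp⟩

theorem Sym.ball {K : Set E} (h : Sym K) (hi : (interior K).Nonempty) :
    ∃ r > 0, Metric.closedBall (0 : E) r ⊆ K := by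
  obtain ⟨x, hx⟩ := hi
  obtain ⟨r, hr, hrK⟩ := Metric.isOpen_iff.1 isOpen_interior x hx
  refine ⟨r / 2, by positivity, fun y hy => ?_⟩
  rw [Metric.mem_closedBall, dist_zero_right] at hy
  have h1 : x + y ∈ K := interior_subset (hrK (by
    rw [Metric.mem_ball, dist_eq_norm, add_sub_cancel_left]; linarith))
  have h2 : x - y ∈ K := interior_subset (hrK (by
    rw [Metric.mem_ball, dist_eq_norm, sub_sub_cancel_left, norm_neg]; linarith))
  have := h.conv h1 (h.neg _ h2) (by norm_num : (0:ℝ) ≤ 1/2) (by norm_num : (0:ℝ) ≤ 1/2) (by norm_num)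
  convert this using 1
  module

/-- The logarithmic sum. -/
def logSum (lam : ℝ) (K L : Set E) : Set E :=
  {x | ∀ φ : E →ₗ[ℝ] ℝ, φ x ≤ supp K φ ^ (1 - lam) * supp L φ ^ lam}

theorem logSum_isClosed (lam : ℝ) (K L : Set E) : IsClosed (logSum lam K L) := by
  have : logSum lam K L = ⋂ φ : E →ₗ[ℝ] ℝ, {x | φ x ≤ supp K φ ^ (1 - lam) * supp L φ ^ lam} := by
    ext x; simp [logSum]
  rw [this]
  exact isClosed_iInter fun φ => isClosed_le (cont φ) continuous_const

theorem supp_image (e : F ≃ₗ[ℝ] E) (K : Set F) (φ : E →ₗ[ℝ] ℝ) :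
    supp (e '' K) φ = supp K (φ ∘ₗ e.toLinearMap) := by
  simp [supp, image_image]

theorem logSum_image (lam : ℝ) (e : F ≃ₗ[ℝ] E) (K L : Set F) :
    logSum lam (e '' K) (e '' L) = e '' logSum lam K L := by
  ext x
  constructor
  · intro hx
    refine ⟨e.symm x, fun φ => ?_, by simp⟩
    have h1 := hx (φ ∘ₗ e.symm.toLinearMap)
    have h2 : (φ ∘ₗ e.symm.toLinearMap) ∘ₗ e.toLinearMap = φ := by ext y; simp
    rw [supp_image, supp_image, h2] at h1
    simpa using h1
  · rintro ⟨y, hy, rfl⟩ φ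
    rw [supp_image, supp_image]
    exact hy (φ ∘ₗ e.toLinearMap)

theorem Sym.image {K : Set F} (h : Sym K) (e : F →ₗ[ℝ] E) : Sym (e '' K) := by
  refine ⟨h.compact.image (LinearMap.continuous_of_finiteDimensional e), h.conv.linear_image e, ?_⟩
  rintro _ ⟨x, hx, rfl⟩
  exact ⟨-x, h.neg x hx, map_neg e x⟩

variable [MeasurableSpace E] [BorelSpace E] [MeasurableSpace F] [BorelSpace F]

/-- Linear equivalences multiply Haar measures by a constant. -/
theorem exists_volume_image (e : F ≃ₗ[ℝ] E) (μ : Measure F) [μ.IsAddHaarMeasure] (ν : Measure E)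
    [ν.IsAddHaarMeasure] : ∃ c : ℝ≥0∞, c ≠ 0 ∧ c ≠ ⊤ ∧ ∀ A : Set F, ν (e '' A) = c * μ A := by
  set T := e.toContinuousLinearEquiv with hT
  have hμ' : (ν.map T.symm).IsAddHaarMeasure := T.symm.isAddHaarMeasure_map ν
  refine ⟨(Measure.addHaarScalarFactor (ν.map T.symm) μ : ℝ≥0∞), ?_, ENNReal.coe_ne_top,
    fun A => ?_⟩
  · exact_mod_cast (Measure.addHaarScalarFactor_pos_of_isAddHaarMeasure (ν.map T.symm) μ).ne'
  · have h := congrArg (fun m : Measure F => m A) (Measure.isAddLeftInvariant_eq_smul (ν.map T.symm) μ)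
    rw [show (ν.map T.symm) A = ν (T.symm ⁻¹' A) from
      T.symm.toHomeomorph.toMeasurableEquiv.map_apply A] at h
    have hA : e '' A = T.symm ⁻¹' A := by
      ext x
      constructor
      · rintro ⟨y, hy, rfl⟩
        show T.symm (T y) ∈ A
        simpa using hy
      · intro hx
        exact ⟨T.symm x, hx, T.apply_symm_apply x⟩
    rw [hA]
    rw [h]
    rfl

/-- The inequality transfers along linear equivalences. -/
theorem logBM_transfer {lam : ℝ} (h0 : 0 ≤ lam) (h1 : lam ≤ 1) (e : F ≃ₗ[ℝ] E) (μ : Measure F)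
    [μ.IsAddHaarMeasure] (ν : Measure E) [ν.IsAddHaarMeasure] {K L : Set F}
    (h : μ K ^ (1 - lam) * μ L ^ lam ≤ μ (logSum lam K L)) :
    ν (e '' K) ^ (1 - lam) * ν (e '' L) ^ lam ≤ ν (logSum lam (e '' K) (e '' L)) := by
  obtain ⟨c, hc0, hct, hc⟩ := exists_volume_image e μ ν
  rw [logSum_image, hc, hc, hc, ENNReal.mul_rpow_of_nonneg _ _ (by linarith),
    ENNReal.mul_rpow_of_nonneg _ _ h0, mul_mul_mul_comm, ← ENNReal.rpow_add _ _ hc0 hct,
    sub_add_cancel, ENNReal.rpow_one]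
  exact mul_le_mul' le_rfl h

end Vale.Agent.P227
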