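import Vale.Agent.P262.Exact.BalancePL
import Mathlib.MeasureTheory.Function.Jacobian
import Mathlib.MeasureTheory.Measure.Lebesgue.Integral
import Mathlib

/-! # P227: multiplicative Prékopa–Leindler inequality for functions even in each coordinate -/

open Set MeasureTheory Real

namespace Vale.Agent.P227

/-- Measurable, nonnegative, bounded, supported in a box, even in each coordinate. -/
structure Good {m : ℕ} (f : (Fin m → ℝ) → ℝ) : Prop where
  meas : Measurable f
  nonneg : ∀ x, 0 ≤ f x
  even : ∀ x, f x = f fun i => |x i|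
  bdd : ∃ M, ∀ x, f x ≤ M
  supp : ∃ R, 0 ≤ R ∧ ∀ x : Fin m → ℝ, ∀ i, R < |x i| → f x = 0

theorem Good.integrable {m : ℕ} {f : (Fin m → ℝ) → ℝ} (hf : Good f) : Integrable f := by
  obtain ⟨M, hM⟩ := hf.bdd
  obtain ⟨R, -, hR⟩ := hf.supp
  set s := Icc (fun _ : Fin m => -R) (fun _ => R)
  have hi : IntegrableOn f s :=
    Measure.integrableOn_of_bounded (M := M) isCompact_Icc.measure_lt_top.ne
      hf.meas.aestronglyMeasurable
      (Filter.Eventually.of_forall fun x => by
        rw [Real.norm_eq_abs, abs_of_nonneg (hf.nonneg x)]; exact hM x)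
  refine (integrableOn_iff_integrable_of_support_subset fun x hx => ?_).1 hi
  have h : ∀ i, |x i| ≤ R := fun i => not_lt.1 fun hlt => hx (hR x i hlt)
  exact ⟨fun i => (abs_le.1 (h i)).1, fun i => (abs_le.1 (h i)).2⟩

theorem change_exp {f : ℝ → ℝ} (hf : Integrable f) :
    Integrable (fun s => f (Real.exp s) * Real.exp s) ∧
      ∫ x in Ioi 0, f x = ∫ s, f (Real.exp s) * Real.exp s := by
  have hd : ∀ s ∈ (univ : Set ℝ), HasDerivWithinAt Real.exp (Real.exp s) univ s :=
    fun s _ => (Real.hasDerivAt_exp s).hasDerivWithinAt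
  have e : ∀ s, |Real.exp s| • f (Real.exp s) = f (Real.exp s) * Real.exp s := fun s => by
    rw [abs_of_pos (Real.exp_pos s), smul_eq_mul, mul_comm]
  have hi := (integrableOn_image_iff_integrableOn_abs_deriv_smul MeasurableSet.univ hd
    Real.exp_injective.injOn f).1 hf.integrableOn
  have heq := integral_image_eq_integral_abs_deriv_smul MeasurableSet.univ hd
    Real.exp_injective.injOn f
  rw [image_univ, Real.range_exp, setIntegral_univ] at heq
  rw [integrableOn_univ] at hi
  simp only [e] at hi heq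
  exact ⟨hi, heq⟩

/-- The one-dimensional statement. -/
theorem mult1 {f g h : ℝ → ℝ} {a : ℝ} (ha0 : 0 < a) (ha1 : a < 1) (hf : Measurable f)
    (hg : Measurable g) (hfi : Integrable f) (hgi : Integrable g) (hhi : Integrable h)
    (f0 : ∀ x, 0 ≤ f x) (g0 : ∀ x, 0 ≤ g x) (h0 : ∀ x, 0 ≤ h x)
    (fe : ∀ x, f x = f |x|) (ge : ∀ x, g x = g |x|) (he : ∀ x, h x = h |x|)
    (fb : BddAbove (range fun s => f (Real.exp s) * Real.exp s))
    (gb : BddAbove (range fun s => g (Real.exp s) * Real.exp s))
    (hyp : ∀ x y, 0 < x → 0 < y → f x ^ a * g y ^ (1 - a) ≤ h (x ^ a * y ^ (1 - a))) :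
    (∫ x, f x) ^ a * (∫ x, g x) ^ (1 - a) ≤ ∫ x, h x := by
  have two : ∀ {F : ℝ → ℝ}, Integrable F → (∀ x, F x = F |x|) →
      ∫ x, F x = 2 * ∫ s, F (Real.exp s) * Real.exp s := fun {F} hF hFe => by
    rw [← (change_exp hF).2, ← integral_comp_abs]
    exact integral_congr_ae (Filter.Eventually.of_forall hFe)
  have key := Vale.Agent.P262.Exact.pl1d ha0 ha1 ((hf.comp measurable_exp).mul measurable_exp)
    ((hg.comp measurable_exp).mul measurable_exp) (change_exp hfi).1 (change_exp hgi).1
    (change_exp hhi).1 (fun s => mul_nonneg (f0 _) (Real.exp_pos s).le)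
    (fun s => mul_nonneg (g0 _) (Real.exp_pos s).le) (fun s => mul_nonneg (h0 _) (Real.exp_pos s).le)
    fb gb fun x y => by
      simp only [Pi.mul_apply, Function.comp_apply]
      rw [Real.mul_rpow (f0 _) (Real.exp_pos x).le, Real.mul_rpow (g0 _) (Real.exp_pos y).le,
        mul_mul_mul_comm, Real.exp_add, ← Real.exp_mul, ← Real.exp_mul, mul_comm x a,
        mul_comm y (1 - a)]
      refine mul_le_mul_of_nonneg_right ?_ (by positivity)
      refine (hyp _ _ (Real.exp_pos x) (Real.exp_pos y)).trans_eq ?_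
      rw [← Real.exp_mul, ← Real.exp_mul, mul_comm x a, mul_comm y (1 - a)]
  simp only [Pi.mul_apply, Function.comp_apply] at key
  have hn : ∀ {F : ℝ → ℝ}, (∀ x, 0 ≤ F x) → 0 ≤ ∫ s, F (Real.exp s) * Real.exp s := fun hF =>
    integral_nonneg fun s => mul_nonneg (hF _) (Real.exp_pos s).le
  rw [two hfi fe, two hgi ge, two hhi he, Real.mul_rpow two_pos.le (hn f0),
    Real.mul_rpow two_pos.le (hn g0), mul_mul_mul_comm, ← Real.rpow_add two_pos, add_sub_cancel,
    Real.rpow_one]
  exact mul_le_mul_of_nonneg_left key two_pos.le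

/-- Fix the first coordinate. -/
theorem Good.slice {m : ℕ} {f : (Fin (m + 1) → ℝ) → ℝ} (hf : Good f) (t : ℝ) :
    Good fun y : Fin m → ℝ => f (Fin.cons |t| y) := by
  refine ⟨hf.meas.comp (measurable_pi_lambda _ (Fin.cases (by simp) fun i => by
      simpa using measurable_pi_apply i)), fun y => hf.nonneg _, fun y => ?_, ?_, ?_⟩
  · rw [hf.even, hf.even (Fin.cons |t| fun i => |y i|)]
    congr 1
    funext i
    cases i using Fin.cases <;> simp
  · obtain ⟨M, hM⟩ := hf.bdd
    exact ⟨M, fun y => hM _⟩
  · obtain ⟨R, hR0, hR⟩ := hf.supp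
    exact ⟨R, hR0, fun y i hi => hR _ i.succ (by simpa using hi)⟩

theorem mult {a : ℝ} (ha0 : 0 < a) (ha1 : a < 1) : ∀ (m : ℕ) {f g h : (Fin m → ℝ) → ℝ},
    Good f → Good g → Good h →
    (∀ x y : Fin m → ℝ, (∀ i, 0 < x i) → (∀ i, 0 < y i) →
      f x ^ a * g y ^ (1 - a) ≤ h fun i => x i ^ a * y i ^ (1 - a)) →
    (∫ x, f x) ^ a * (∫ x, g x) ^ (1 - a) ≤ ∫ x, h x := by
  intro m
  induction m with
  | zero =>
    intro f g h _ _ _ hyp
    have hv : (volume : Measure (Fin 0 → ℝ)).real univ = 1 := by
      rw [Measure.real, volume_pi, Measure.pi_univ]; simp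
    rw [integral_unique, integral_unique, integral_unique, hv, one_smul, one_smul, one_smul]
    convert hyp default default (fun i => i.elim0) (fun i => i.elim0) using 1 <;>
      first
        | exact congrArg h (Subsingleton.elim _ _)
        | (congr 2 <;> congr 1 <;> exact Subsingleton.elim _ _)
  | succ m ih =>
    intro f g h hf hg hh hyp
    set e := (MeasurableEquiv.piFinSuccAbove (fun _ : Fin (m + 1) => ℝ) 0).symm
    have hpres : MeasurePreserving e (volume.prod volume) volume :=
      (volume_preserving_piFinSuccAbove (fun _ : Fin (m + 1) => ℝ) 0).symm _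
    have he : ∀ p : ℝ × (Fin m → ℝ), e p = Fin.cons p.1 p.2 := fun p => by
      funext i; simp [e, MeasurableEquiv.piFinSuccAbove]
    have hsplit : ∀ {F : (Fin (m + 1) → ℝ) → ℝ}, Good F →
        Integrable (fun t => ∫ y, F (Fin.cons t y)) ∧ ∫ x, F x = ∫ t, ∫ y, F (Fin.cons t y) := by
      intro F hF
      have h1 := hpres.integrable_comp_of_integrable hF.integrable
      have h2 : ∀ p : ℝ × (Fin m → ℝ), (F ∘ e) p = F (Fin.cons p.1 p.2) := fun p => by
        simp [he]
      refine ⟨?_, ?_⟩
      · have := h1.integral_prod_left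
        simpa only [h2] using this
      · rw [← hpres.integral_comp' F]
        simpa only [h2, Function.comp_apply, he] using integral_prod _ h1
    have hslice_eq : ∀ {F : (Fin (m + 1) → ℝ) → ℝ}, Good F → ∀ t y,
        F (Fin.cons t y) = F (Fin.cons |t| y) := by
      intro F hF t y
      rw [hF.even, hF.even (Fin.cons |t| y)]
      congr 1
      funext i
      cases i using Fin.cases <;> simp
    have hF1 : ∀ {F : (Fin (m + 1) → ℝ) → ℝ}, Good F →
        Measurable (fun t => ∫ y, F (Fin.cons t y)) ∧
        BddAbove (range fun s => (∫ y, F (Fin.cons (Real.exp s) y)) * Real.exp s) := by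
      intro F hF
      have hm : Measurable fun p : ℝ × (Fin m → ℝ) => F (Fin.cons p.1 p.2) := by
        have := hF.meas.comp e.measurable
        simpa [Function.comp_def, he] using this
      refine ⟨(hm.stronglyMeasurable.integral_prod_right' (ν := volume)).measurable, ?_⟩
      obtain ⟨M, hM⟩ := hF.bdd
      obtain ⟨R, hR0, hR⟩ := hF.supp
      set s := Icc (fun _ : Fin m => -R) (fun _ => R)
      have hM0 : 0 ≤ M := (hF.nonneg 0).trans (hM 0)
      refine ⟨M * volume.real s * R, ?_⟩
      rintro _ ⟨t, rfl⟩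
      have hbd : ∫ y, F (Fin.cons (Real.exp t) y) ≤ M * volume.real s := by
        rw [← setIntegral_eq_integral_of_forall_compl_eq_zero (s := s) fun y hy => ?_]
        · refine (Real.le_norm_self _).trans
            (norm_setIntegral_le_of_norm_le_const isCompact_Icc.measure_lt_top fun y _ => ?_)
          rw [Real.norm_eq_abs, abs_of_nonneg (hF.nonneg _)]; exact hM _
        · obtain ⟨i, hi⟩ : ∃ i, R < |y i| := by
            by_contra hc
            push Not at hc
            exact hy ⟨fun i => (abs_le.1 (hc i)).1, fun i => (abs_le.1 (hc i)).2⟩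
          exact hR _ i.succ (by simpa using hi)
      rcases le_or_gt (Real.exp t) R with ht | ht
      · exact mul_le_mul hbd ht (Real.exp_pos t).le (mul_nonneg hM0 measureReal_nonneg)
      · have : ∀ y, F (Fin.cons (Real.exp t) y) = 0 := fun y =>
          hR _ 0 (by simpa [abs_of_pos (Real.exp_pos t)] using ht)
        simp only [this, integral_zero, zero_mul]
        positivity
    rw [(hsplit hf).2, (hsplit hg).2, (hsplit hh).2]
    refine mult1 ha0 ha1 (hF1 hf).1 (hF1 hg).1 (hsplit hf).1 (hsplit hg).1 (hsplit hh).1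
      (fun t => integral_nonneg fun y => hf.nonneg _) (fun t => integral_nonneg fun y => hg.nonneg _)
      (fun t => integral_nonneg fun y => hh.nonneg _)
      (fun t => integral_congr_ae (.of_forall fun y => hslice_eq hf t y))
      (fun t => integral_congr_ae (.of_forall fun y => hslice_eq hg t y))
      (fun t => integral_congr_ae (.of_forall fun y => hslice_eq hh t y))
      (hF1 hf).2 (hF1 hg).2 fun s t hs ht => ?_
    have hst : 0 < s ^ a * t ^ (1 - a) := mul_pos (Real.rpow_pos_of_pos hs _) (Real.rpow_pos_of_pos ht _)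
    have := ih (hf.slice s) (hg.slice t) (hh.slice (s ^ a * t ^ (1 - a))) fun x y hx hy => by
      rw [abs_of_pos hs, abs_of_pos ht, abs_of_pos hst]
      refine (hyp _ _ (Fin.cases (by simpa) (by simpa using hx))
        (Fin.cases (by simpa) (by simpa using hy))).trans_eq (congrArg h ?_)
      funext i
      cases i using Fin.cases <;> simp
    rw [abs_of_pos hs, abs_of_pos ht, abs_of_pos hst] at this
    exact this

end Vale.Agent.P227
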