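import Vale.Agent.P227.Planar
import Vale.Agent.P227.Mult

/-! # P227: bodies invariant under `n - 2` coordinate reflections, by fibres over the plane -/

open Set MeasureTheory Real
open scoped ENNReal

namespace Vale.Agent.P227

variable {m : ℕ}

/-- The space: `m` reflected coordinates and a plane. -/
abbrev Spc (m : ℕ) := (Fin m → ℝ) × (ℝ × ℝ)

/-- Change of signs in the coordinates of `T`. -/
def fl (T : Finset (Fin m)) (x : Fin m → ℝ) : Fin m → ℝ := fun i => if i ∈ T then -x i else x i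

theorem fl_fl (T : Finset (Fin m)) (x : Fin m → ℝ) : fl T (fl T x) = x := by
  funext i; by_cases h : i ∈ T <;> simp [fl, h]

/-- The sign change as a linear equivalence of the whole space. -/
def flE (T : Finset (Fin m)) : Spc m ≃ₗ[ℝ] Spc m where
  toFun z := (fl T z.1, z.2)
  invFun z := (fl T z.1, z.2)
  left_inv z := by simp [fl_fl]
  right_inv z := by simp [fl_fl]
  map_add' z w := by
    refine Prod.ext (funext fun i => ?_) rfl
    by_cases h : i ∈ T <;> simp [fl, h]; ring
  map_smul' c z := by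
    refine Prod.ext (funext fun i => ?_) rfl
    by_cases h : i ∈ T <;> simp [fl, h]

/-- Symmetric convex body invariant under the sign changes of the first `m` coordinates. -/
structure Flip (K : Set (Spc m)) : Prop extends Sym K where
  flip : ∀ k : Fin m, ∀ z ∈ K, (fl {k} z.1, z.2) ∈ K

theorem Flip.fl_mem {K : Set (Spc m)} (hK : Flip K) (T : Finset (Fin m)) {z : Spc m} (hz : z ∈ K) :
    (fl T z.1, z.2) ∈ K := by
  induction T using Finset.induction_on with
  | empty => rwa [show fl ∅ z.1 = z.1 from funext fun i => by simp [fl]]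
  | insert k T hk ih =>
    have := hK.flip k _ ih
    convert this using 2
    funext i
    rcases eq_or_ne i k with rfl | hne
    · simp [fl, hk]
    · by_cases h : i ∈ T <;> simp [fl, h, hne]

theorem Flip.of_abs {K : Set (Spc m)} (hK : Flip K) {x x' : Fin m → ℝ} (h : ∀ i, |x i| = |x' i|)
    {y : ℝ × ℝ} (hz : (x, y) ∈ K) : (x', y) ∈ K := by
  classical
  have := hK.fl_mem (Finset.univ.filter fun i => x' i ≠ x i) hz
  convert this using 2
  funext i
  by_cases hi : x' i = x i
  · simp [fl, hi]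
  · simp only [fl, Finset.mem_filter, Finset.mem_univ, true_and, hi, not_false_eq_true, if_true, ne_eq]
    exact ((abs_eq_abs.1 (h i).symm).resolve_left hi)

theorem Flip.image_flE {K : Set (Spc m)} (hK : Flip K) (T : Finset (Fin m)) : flE T '' K = K := by
  refine Subset.antisymm (image_subset_iff.2 fun z hz => hK.fl_mem T hz) fun z hz => ?_
  exact ⟨(fl T z.1, z.2), hK.fl_mem T hz, by simp [flE, fl_fl]⟩

/-- The fibre over a point. -/
def fib (K : Set (Spc m)) (x : Fin m → ℝ) : Set (ℝ × ℝ) := Prod.mk x ⁻¹' K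

theorem fib_compact {K : Set (Spc m)} (hK : IsCompact K) (x : Fin m → ℝ) : IsCompact (fib K x) :=
  (hK.image continuous_snd).of_isClosed_subset (hK.isClosed.preimage (by fun_prop))
    fun y hy => ⟨(x, y), hy, rfl⟩

theorem Flip.fib_sym {K : Set (Spc m)} (hK : Flip K) (x : Fin m → ℝ) : Sym (fib K x) := by
  refine ⟨fib_compact hK.compact x, fun y hy y' hy' a b ha hb hab => ?_, fun y hy => ?_⟩
  · have h : (a • x + b • x, a • y + b • y') ∈ K := hK.conv hy hy' ha hb hab
    show (x, a • y + b • y') ∈ K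
    rwa [← add_smul, hab, one_smul] at h
  · exact hK.of_abs (x := -x) (fun i => by simp) (hK.neg _ hy)

/-- Hölder's inequality with two terms. -/
theorem holder_two {A B C D a : ℝ} (ha0 : 0 < a) (ha1 : a < 1) (hA : 0 ≤ A) (hB : 0 ≤ B)
    (hC : 0 ≤ C) (hD : 0 ≤ D) :
    A ^ a * B ^ (1 - a) + C ^ a * D ^ (1 - a) ≤ (A + C) ^ a * (B + D) ^ (1 - a) := by
  have hb : 0 < 1 - a := sub_pos.2 ha1
  rcases eq_or_lt_of_le (add_nonneg hA hC) with h1 | h1
  · rw [show A = 0 by linarith, show C = 0 by linarith]; simp [Real.zero_rpow ha0.ne']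
  rcases eq_or_lt_of_le (add_nonneg hB hD) with h2 | h2
  · rw [show B = 0 by linarith, show D = 0 by linarith]; simp [Real.zero_rpow hb.ne']
  have k1 := Real.geom_mean_le_arith_mean2_weighted ha0.le hb.le (div_nonneg hA h1.le)
    (div_nonneg hB h2.le) (by ring)
  have k2 := Real.geom_mean_le_arith_mean2_weighted ha0.le hb.le (div_nonneg hC h1.le)
    (div_nonneg hD h2.le) (by ring)
  rw [Real.div_rpow hA h1.le, Real.div_rpow hB h2.le, div_mul_div_comm] at k1
  rw [Real.div_rpow hC h1.le, Real.div_rpow hD h2.le, div_mul_div_comm] at k2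
  have e : a * (A / (A + C)) + (1 - a) * (B / (B + D)) + (a * (C / (A + C)) + (1 - a) * (D / (B + D))) = 1 := by
    field_simp; ring
  have h3 := add_le_add k1 k2
  rw [e, ← add_div, div_le_one (mul_pos (Real.rpow_pos_of_pos h1 _) (Real.rpow_pos_of_pos h2 _))] at h3
  exact h3

theorem sum_holder {ι : Type*} (s : Finset ι) {A B : ι → ℝ} {C D a : ℝ} (ha0 : 0 < a) (ha1 : a < 1)
    (hA : ∀ i, 0 ≤ A i) (hB : ∀ i, 0 ≤ B i) (hC : 0 ≤ C) (hD : 0 ≤ D) :
    (∑ i ∈ s, A i ^ a * B i ^ (1 - a)) + C ^ a * D ^ (1 - a)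
      ≤ ((∑ i ∈ s, A i) + C) ^ a * ((∑ i ∈ s, B i) + D) ^ (1 - a) := by
  classical
  induction s using Finset.induction_on with
  | empty => simp
  | insert k s hk ih =>
    rw [Finset.sum_insert hk, Finset.sum_insert hk, Finset.sum_insert hk, add_assoc, add_assoc, add_assoc]
    refine le_trans (add_le_add le_rfl ih) (holder_two ha0 ha1 (hA k) (hB k) ?_ ?_)
    · exact add_nonneg (Finset.sum_nonneg fun i _ => hA i) hC
    · exact add_nonneg (Finset.sum_nonneg fun i _ => hB i) hD

theorem Flip.supp_ge {K : Set (Spc m)} (hK : Flip K) {x : Fin m → ℝ}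
    (hne : (fib K x).Nonempty) (φ : Spc m →ₗ[ℝ] ℝ) :
    (∑ i, |φ (Pi.single i 1, 0)| * x i) + supp (fib K x) (φ ∘ₗ LinearMap.inr ℝ _ _) ≤ supp K φ := by
  obtain ⟨y, hy, hye⟩ := exists_supp (fib_compact hK.compact x) hne (φ ∘ₗ LinearMap.inr ℝ _ _)
  set c : Fin m → ℝ := fun i => φ (Pi.single i 1, 0)
  set x' : Fin m → ℝ := fun i => if c i < 0 then -x i else x i
  have hmem : (x', y) ∈ K := hK.of_abs (x := x) (fun i => by
    by_cases h : c i < 0 <;> simp [x', h]) hy
  refine le_trans ?_ (le_supp hK.compact hmem)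
  rw [← hye]
  have e : φ (x', y) = (∑ i, c i * x' i) + φ (0, y) := by
    have : (x', y) = (∑ i, x' i • ((Pi.single i 1 : Fin m → ℝ), (0 : ℝ × ℝ))) + (0, y) := by
      refine Prod.ext ?_ ?_
      · simp [Prod.fst_sum, ← pi_eq_sum_univ']
      · simp [Prod.snd_sum]
    rw [this, map_add, map_sum]
    simp only [map_smul, smul_eq_mul, c]
    exact congrArg₂ _ (Finset.sum_congr rfl fun i _ => mul_comm _ _) rfl
  rw [e]
  refine le_of_eq (congrArg₂ _ (Finset.sum_congr rfl fun i _ => ?_) rfl)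
  by_cases h : c i < 0
  · simp only [x', h, if_true]; rw [abs_of_neg h]; ring
  · simp only [x', h, if_false]; rw [abs_of_nonneg (not_lt.1 h)]

/-- The fibre of the logarithmic sum contains the planar logarithmic sum of the fibres. -/
theorem logSum_fib {K L : Set (Spc m)} (hK : Flip K) (hL : Flip L) {a : ℝ} (ha0 : 0 < a)
    (ha1 : a < 1) {x y : Fin m → ℝ} (hx : ∀ i, 0 ≤ x i) (hy : ∀ i, 0 ≤ y i)
    (hKne : (fib K x).Nonempty) (hLne : (fib L y).Nonempty) :
    logSum (1 - a) (fib K x) (fib L y) ⊆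
      fib (logSum (1 - a) K L) fun i => x i ^ a * y i ^ (1 - a) := by
  intro z hz φ
  rw [sub_sub_cancel]
  set p : Fin m → ℝ := fun i => x i ^ a * y i ^ (1 - a)
  set ψ := φ ∘ₗ LinearMap.inr ℝ (Fin m → ℝ) (ℝ × ℝ)
  set c : Fin m → ℝ := fun i => φ (Pi.single i 1, 0)
  have h1 := hz ψ
  rw [sub_sub_cancel] at h1
  have e : φ (p, z) = (∑ i, c i * p i) + ψ z := by
    have : (p, z) = (∑ i, p i • ((Pi.single i 1 : Fin m → ℝ), (0 : ℝ × ℝ))) + (0, z) := by
      refine Prod.ext ?_ ?_
      · simp [Prod.fst_sum, ← pi_eq_sum_univ']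
      · simp [Prod.snd_sum]
    rw [this, map_add, map_sum]
    simp only [map_smul, smul_eq_mul, c]
    exact congrArg₂ _ (Finset.sum_congr rfl fun i _ => mul_comm _ _) rfl
  have s1 := (hK.fib_sym x).supp_nonneg hKne ψ
  have s2 := (hL.fib_sym y).supp_nonneg hLne ψ
  calc φ (p, z) ≤ (∑ i, (|c i| * x i) ^ a * (|c i| * y i) ^ (1 - a))
        + supp (fib K x) ψ ^ a * supp (fib L y) ψ ^ (1 - a) := by
        rw [e]
        refine add_le_add (Finset.sum_le_sum fun i _ => ?_) h1
        rw [Real.mul_rpow (abs_nonneg _) (hx i), Real.mul_rpow (abs_nonneg _) (hy i),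
          mul_mul_mul_comm, ← Real.rpow_add' (abs_nonneg _) (by norm_num), add_sub_cancel,
          Real.rpow_one]
        exact mul_le_mul_of_nonneg_right (le_abs_self _)
          (mul_nonneg (Real.rpow_nonneg (hx i) _) (Real.rpow_nonneg (hy i) _))
    _ ≤ _ := sum_holder _ ha0 ha1 (fun i => mul_nonneg (abs_nonneg _) (hx i))
        (fun i => mul_nonneg (abs_nonneg _) (hy i)) s1 s2
    _ ≤ _ := by
        have t1 := hK.supp_ge hKne φ
        have t2 := hL.supp_ge hLne φ
        have n1 : 0 ≤ (∑ i, |c i| * x i) + supp (fib K x) ψ :=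
          add_nonneg (Finset.sum_nonneg fun i _ => mul_nonneg (abs_nonneg _) (hx i)) s1
        have n2 : 0 ≤ (∑ i, |c i| * y i) + supp (fib L y) ψ :=
          add_nonneg (Finset.sum_nonneg fun i _ => mul_nonneg (abs_nonneg _) (hy i)) s2
        exact mul_le_mul (Real.rpow_le_rpow n1 t1 ha0.le)
          (Real.rpow_le_rpow n2 t2 (sub_pos.2 ha1).le) (Real.rpow_nonneg n2 _)
          (Real.rpow_nonneg (n1.trans t1) _)

theorem logSum_compact {K L : Set (Spc m)} (hK : Sym K) (hL : Sym L) (lam : ℝ) :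
    IsCompact (logSum lam K L) := by
  set b : (Spc m →ₗ[ℝ] ℝ) → ℝ := fun φ => supp K φ ^ (1 - lam) * supp L φ ^ lam
  have key : ∀ φ : Spc m →ₗ[ℝ] ℝ, ∀ z ∈ logSum lam K L, φ z ∈ Icc (-b φ) (b φ) := by
    intro φ z hz
    have h2 := hz (-φ)
    rw [supp_neg hK, supp_neg hL, LinearMap.neg_apply] at h2
    exact ⟨by linarith, hz φ⟩
  set p : Fin m → Spc m →ₗ[ℝ] ℝ := fun i => LinearMap.proj i ∘ₗ LinearMap.fst ℝ _ _
  set q₁ : Spc m →ₗ[ℝ] ℝ := LinearMap.fst ℝ ℝ ℝ ∘ₗ LinearMap.snd ℝ _ _
  set q₂ : Spc m →ₗ[ℝ] ℝ := LinearMap.snd ℝ ℝ ℝ ∘ₗ LinearMap.snd ℝ _ _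
  refine IsCompact.of_isClosed_subset ((isCompact_Icc (a := fun i => -b (p i)) (b := fun i => b (p i))).prod
    ((isCompact_Icc (a := -b q₁) (b := b q₁)).prod (isCompact_Icc (a := -b q₂) (b := b q₂))))
    (logSum_isClosed lam K L) fun z hz => ?_
  exact ⟨⟨fun i => (key (p i) z hz).1, fun i => (key (p i) z hz).2⟩, key q₁ z hz, key q₂ z hz⟩

theorem good_vol {K : Set (Spc m)} (hK : IsCompact K)
    (hev : ∀ x, fib K x = fib K fun i => |x i|) : Good fun x => (volume (fib K x)).toReal := by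
  refine ⟨(measurable_measure_prodMk_left hK.measurableSet).ennreal_toReal,
    fun x => ENNReal.toReal_nonneg, fun x => by simp only [← hev], ?_, ?_⟩
  · exact ⟨_, fun x => ENNReal.toReal_mono (hK.image continuous_snd).measure_lt_top.ne
      (measure_mono fun y hy => ⟨(x, y), hy, rfl⟩)⟩
  · obtain ⟨R, hR⟩ := hK.isBounded.exists_norm_le
    refine ⟨max R 0, le_max_right _ _, fun x i hi => ?_⟩
    have : fib K x = ∅ := eq_empty_of_forall_notMem fun y hy => by
      have h1 := (norm_le_pi_norm x i).trans ((le_max_left ‖x‖ ‖y‖).trans (hR _ hy))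
      rw [Real.norm_eq_abs] at h1
      exact absurd (h1.trans (le_max_left _ _)) (not_le.2 hi)
    simp [this]

theorem integral_fib {K : Set (Spc m)} (hK : IsCompact K) :
    ∫ x, (volume (fib K x)).toReal = (volume K).toReal := by
  unfold fib
  rw [integral_toReal (measurable_measure_prodMk_left hK.measurableSet).aemeasurable
    (.of_forall fun x => (fib_compact hK x).measure_lt_top)]
  conv_rhs => rw [Measure.volume_eq_prod, Measure.prod_apply hK.measurableSet]

/-- The inequality for bodies with the `m` coordinate symmetries. -/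
theorem flip_logBM {K L : Set (Spc m)} (hK : Flip K) (hL : Flip L) {lam : ℝ} (h0 : 0 < lam)
    (h1 : lam < 1) : volume K ^ (1 - lam) * volume L ^ lam ≤ volume (logSum lam K L) := by
  obtain ⟨a, rfl⟩ : ∃ a, lam = 1 - a := ⟨1 - lam, by ring⟩
  rw [sub_sub_cancel]
  have ha0 : 0 < a := by linarith
  have ha1 : a < 1 := by linarith
  set W := logSum (1 - a) K L with hW
  have hWc : IsCompact W := logSum_compact hK.toSym hL.toSym _
  have hWimg : ∀ T, flE T '' W = W := fun T => by
    rw [hW, ← logSum_image, hK.image_flE, hL.image_flE]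
  have hWev : ∀ x, fib W x = fib W fun i => |x i| := fun x => by
    classical
    set T := Finset.univ.filter fun i => x i < 0
    have e : fl T x = fun i => |x i| := funext fun i => by
      by_cases h : x i < 0
      · simp [fl, T, h, abs_of_neg h]
      · simp [fl, T, h, abs_of_nonneg (not_lt.1 h)]
    ext y
    rw [← e]
    constructor
    · intro hy
      show (fl T x, y) ∈ W
      rw [← hWimg T]; exact ⟨(x, y), hy, rfl⟩
    · intro hy
      show (x, y) ∈ W
      rw [← hWimg T]; exact ⟨(fl T x, y), hy, by simp [flE, fl_fl]⟩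
  have hev : ∀ {A : Set (Spc m)}, Flip A → ∀ x, fib A x = fib A fun i => |x i| := fun {A} hA x =>
    Subset.antisymm (fun y hy => hA.of_abs (fun i => by simp) hy)
      (fun y hy => hA.of_abs (fun i => by simp) hy)
  have hm := mult ha0 ha1 m (good_vol hK.compact (hev hK)) (good_vol hL.compact (hev hL))
    (good_vol hWc hWev) fun x y hx hy => by
      rw [ENNReal.toReal_rpow, ENNReal.toReal_rpow, ← ENNReal.toReal_mul]
      refine ENNReal.toReal_mono (fib_compact hWc _).measure_lt_top.ne ?_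
      rcases eq_or_ne (volume (fib K x)) 0 with hz | hz
      · simp [hz, ENNReal.zero_rpow_of_pos ha0]
      rcases eq_or_ne (volume (fib L y)) 0 with hz' | hz'
      · simp [hz', ENNReal.zero_rpow_of_pos (sub_pos.2 ha1)]
      have := planar (hK.fib_sym x) (hL.fib_sym y) h0 h1
      rw [sub_sub_cancel] at this
      exact this.trans (measure_mono (logSum_fib hK hL ha0 ha1 (fun i => (hx i).le) (fun i => (hy i).le)
        (nonempty_of_measure_ne_zero hz) (nonempty_of_measure_ne_zero hz')))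
  rw [integral_fib hK.compact, integral_fib hL.compact, integral_fib hWc, ENNReal.toReal_rpow,
    ENNReal.toReal_rpow, ← ENNReal.toReal_mul] at hm
  refine (ENNReal.toReal_le_toReal ?_ hWc.measure_lt_top.ne).1 hm
  exact ENNReal.mul_ne_top (ENNReal.rpow_ne_top_of_nonneg ha0.le hK.compact.measure_lt_top.ne)
    (ENNReal.rpow_ne_top_of_nonneg (sub_pos.2 ha1).le hL.compact.measure_lt_top.ne)

end Vale.Agent.P227
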