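import Vale.Agent.P227.Fibre

/-! # P227: transfer to an arbitrary basis of Euclidean space -/

open Set MeasureTheory
open scoped ENNReal RealInnerProductSpace

namespace Vale.Agent.P227

theorem shared {n : ℕ} (b : Module.Basis (Fin n) ℝ (EuclideanSpace ℝ (Fin n))) {i j : Fin n}
    (hij : i ≠ j) {K L : Set (EuclideanSpace ℝ (Fin n))} (hK : Sym K) (hL : Sym L)
    (hKr : ∀ k, k ≠ i → k ≠ j → ∀ x ∈ K, x - (2 * b.repr x k) • b k ∈ K)
    (hLr : ∀ k, k ≠ i → k ≠ j → ∀ x ∈ L, x - (2 * b.repr x k) • b k ∈ L)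
    {lam : ℝ} (h0 : 0 ≤ lam) (h1 : lam ≤ 1) :
    volume K ^ (1 - lam) * volume L ^ lam ≤ volume (logSum lam K L) := by
  classical
  rcases eq_or_lt_of_le h0 with rfl | h0'
  · rw [sub_zero, ENNReal.rpow_one, ENNReal.rpow_zero, mul_one]
    exact measure_mono fun x hx φ => by simpa using le_supp hK.compact hx
  rcases eq_or_lt_of_le h1 with rfl | h1'
  · rw [sub_self, ENNReal.rpow_one, ENNReal.rpow_zero, one_mul]
    exact measure_mono fun x hx φ => by simpa using le_supp hL.compact hx
  set m := Fintype.card {k : Fin n // k ≠ i ∧ k ≠ j}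
  set σ : Fin m ≃ {k : Fin n // k ≠ i ∧ k ≠ j} := (Fintype.equivFin _).symm
  let f : EuclideanSpace ℝ (Fin n) →ₗ[ℝ] Spc m :=
    (LinearMap.pi fun k => b.coord (σ k).1).prod ((b.coord i).prod (b.coord j))
  have hf : ∀ x, f x = ((fun k => b.repr x (σ k).1), (b.repr x i, b.repr x j)) := fun x => rfl
  have hinj : Function.Injective f := fun x y h => by
    rw [hf, hf, Prod.mk.injEq, Prod.mk.injEq] at h
    refine b.repr.injective (Finsupp.ext fun k => ?_)
    by_cases hki : k = i
    · exact hki ▸ h.2.1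
    by_cases hkj : k = j
    · exact hkj ▸ h.2.2
    simpa using congrFun h.1 (σ.symm ⟨k, hki, hkj⟩)
  have hsurj : Function.Surjective f := fun z => by
    refine ⟨b.equivFun.symm fun k => if h : k ≠ i ∧ k ≠ j then z.1 (σ.symm ⟨k, h⟩)
      else if k = i then z.2.1 else z.2.2, ?_⟩
    rw [hf]
    simp only [← Module.Basis.equivFun_apply, LinearEquiv.apply_symm_apply]
    refine Prod.ext (funext fun k => ?_) (Prod.ext ?_ ?_)
    · simp [(σ k).2]
    · simp
    · simp [hij.symm]
  let e := LinearEquiv.ofBijective f ⟨hinj, hsurj⟩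
  have he : ∀ x, e x = ((fun k => b.repr x (σ k).1), (b.repr x i, b.repr x j)) := fun x => rfl
  have hflip : ∀ {A : Set (EuclideanSpace ℝ (Fin n))}, Sym A →
      (∀ k, k ≠ i → k ≠ j → ∀ x ∈ A, x - (2 * b.repr x k) • b k ∈ A) → Flip (e '' A) := by
    intro A hA hr
    refine ⟨hA.image e.toLinearMap, ?_⟩
    rintro k _ ⟨x, hx, rfl⟩
    refine ⟨_, hr (σ k).1 (σ k).2.1 (σ k).2.2 x hx, ?_⟩
    show e _ = (fl {k} (e x).1, (e x).2)
    rw [he, he]
    refine Prod.ext (funext fun l => ?_) (Prod.ext ?_ ?_)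
    · rcases eq_or_ne l k with rfl | hne
      · simp [fl]; ring
      · have : (σ l).1 ≠ (σ k).1 := fun h => hne (σ.injective (Subtype.ext h))
        simp [fl, hne, this.symm]
    · simp [(σ k).2.1]
    · simp [(σ k).2.2]
  have : (volume : Measure (Spc m)).IsAddHaarMeasure := by
    have h2 : (volume : Measure (ℝ × ℝ)).IsAddHaarMeasure := by
      rw [Measure.volume_eq_prod]; infer_instance
    rw [Measure.volume_eq_prod]; exact Measure.prod.instIsAddHaarMeasure _ _
  have key := logBM_transfer h0 h1 e.symm volume volume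
    (flip_logBM (hflip hK hKr) (hflip hL hLr) h0' h1')
  have hback : ∀ A : Set (EuclideanSpace ℝ (Fin n)), e.symm '' (e '' A) = A := fun A => by
    simp [image_image]
  rwa [hback, hback] at key

end Vale.Agent.P227
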