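import Mathlib

/-! # P227: symmetric polygons with equally spaced normals -/

open Set MeasureTheory Finset Real
open scoped ENNReal

namespace Vale.Agent.P227

/-- Dot product in the plane. -/
def dt (p q : ℝ × ℝ) : ℝ := p.1 * q.1 + p.2 * q.2

/-- Cross product in the plane. -/
def cr (p q : ℝ × ℝ) : ℝ := p.1 * q.2 - p.2 * q.1

/-- Rotation by a right angle. -/
def rot (p : ℝ × ℝ) : ℝ × ℝ := (-p.2, p.1)

/-- The map `(a, b) ↦ a p + b q`. -/
def pair (p q : ℝ × ℝ) : ℝ × ℝ →ₗ[ℝ] ℝ × ℝ :=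
  (LinearMap.fst ℝ ℝ ℝ).smulRight p + (LinearMap.snd ℝ ℝ ℝ).smulRight q

theorem pair_apply (p q z : ℝ × ℝ) : pair p q z = z.1 • p + z.2 • q := rfl

theorem det_pair (p q : ℝ × ℝ) : LinearMap.det (pair p q) = cr p q := by
  rw [← LinearMap.det_toMatrix (Module.Basis.finTwoProd ℝ), Matrix.det_fin_two]
  simp [LinearMap.toMatrix_apply, pair_apply, cr]
  ring

theorem null_line {v : ℝ × ℝ} (hv : v ≠ 0) : volume {x : ℝ × ℝ | cr v x = 0} = 0 := by
  set φ : ℝ × ℝ →ₗ[ℝ] ℝ := v.1 • LinearMap.snd ℝ ℝ ℝ - v.2 • LinearMap.fst ℝ ℝ ℝ with hφ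
  have h : {x : ℝ × ℝ | cr v x = 0} = (LinearMap.ker φ : Set (ℝ × ℝ)) := by
    ext x; simp [hφ, cr]
  rw [h]
  refine Measure.addHaar_submodule _ _ fun htop => hv ?_
  have h1 : ((1, 0) : ℝ × ℝ) ∈ LinearMap.ker φ := htop ▸ Submodule.mem_top
  have h2 : ((0, 1) : ℝ × ℝ) ∈ LinearMap.ker φ := htop ▸ Submodule.mem_top
  simp [hφ] at h1 h2
  exact Prod.ext h2 h1

variable (N : ℕ)

/-- The step angle. -/
noncomputable def dl : ℝ := π / N

/-- The directions. -/
noncomputable def u (k : ℤ) : ℝ × ℝ := (Real.cos (k * dl N), Real.sin (k * dl N))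

/-- The polygon with support numbers `h`. -/
def Pol (h : ℤ → ℝ) : Set (ℝ × ℝ) := {x | ∀ k, dt (u N k) x ≤ h k}

/-- Tangential coordinate of a vertex. -/
noncomputable def cc (h : ℤ → ℝ) (k : ℤ) : ℝ :=
  (h (k + 1) - Real.cos (dl N) * h k) / Real.sin (dl N)

/-- Vertex between the edges `k` and `k+1`. -/
noncomputable def vv (h : ℤ → ℝ) (k : ℤ) : ℝ × ℝ := h k • u N k + cc N h k • rot (u N k)

/-- Length of the edge `k`. -/
noncomputable def ell (h : ℤ → ℝ) (k : ℤ) : ℝ :=
  (h (k + 1) + h (k - 1) - 2 * Real.cos (dl N) * h k) / Real.sin (dl N)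

/-- The bilinear area form. -/
noncomputable def B (f g : ℤ → ℝ) : ℝ := ∑ i ∈ range N, f i * ell N g i

/-- Periodic, positive, with nonnegative edge lengths. -/
structure Adm (h : ℤ → ℝ) : Prop where
  per : ∀ k, h (k + N) = h k
  pos : ∀ k, 0 < h k
  len : ∀ k, 0 ≤ ell N h k

variable {N}

section
variable (hN : 2 ≤ N)
include hN

theorem dl_pos : 0 < dl N := by
  have : (0 : ℝ) < N := by exact_mod_cast (by omega : 0 < N)
  unfold dl; positivity

theorem mul_dl : (N : ℝ) * dl N = π := by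
  have : (N : ℝ) ≠ 0 := by exact_mod_cast (by omega : N ≠ 0)
  unfold dl; field_simp

theorem sin_nat_pos {i : ℕ} (h0 : 0 < i) (h1 : i < N) : 0 < Real.sin (i * dl N) := by
  refine sin_pos_of_pos_of_lt_pi (mul_pos (by exact_mod_cast h0) (dl_pos hN)) ?_
  rw [← mul_dl hN]
  exact mul_lt_mul_of_pos_right (by exact_mod_cast h1) (dl_pos hN)

theorem sin_nat_nonneg {i : ℕ} (h1 : i ≤ N) : 0 ≤ Real.sin (i * dl N) := by
  refine sin_nonneg_of_nonneg_of_le_pi (mul_nonneg (by positivity) (dl_pos hN).le) ?_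
  rw [← mul_dl hN]
  exact mul_le_mul_of_nonneg_right (by exact_mod_cast h1) (dl_pos hN).le

theorem sin_dl_pos : 0 < Real.sin (dl N) := by
  simpa using sin_nat_pos hN (i := 1) one_pos (by omega)

theorem u_add_N (k : ℤ) : u N (k + N) = -u N k := by
  have : ((k + N : ℤ) : ℝ) * dl N = k * dl N + π := by push_cast; rw [add_mul, mul_dl hN]
  rw [u, u, this]; simp

theorem u_add_two_mul (k q : ℤ) : u N (k + 2 * N * q) = u N k := by
  have : ((k + 2 * N * q : ℤ) : ℝ) * dl N = k * dl N + q * (2 * π) := by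
    push_cast; linear_combination (2 * (q : ℝ)) * mul_dl hN
  rw [u, u, this, cos_add_int_mul_two_pi, sin_add_int_mul_two_pi]

end

theorem u_succ (k : ℤ) :
    u N (k + 1) = Real.cos (dl N) • u N k + Real.sin (dl N) • rot (u N k) := by
  simp [u, rot, add_mul, cos_add, sin_add, Prod.ext_iff]
  constructor <;> ring

theorem u_pred (k : ℤ) :
    u N (k - 1) = Real.cos (dl N) • u N k - Real.sin (dl N) • rot (u N k) := by
  simp [u, rot, sub_mul, cos_sub, sin_sub, Prod.ext_iff]
  constructor <;> ring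

theorem rot_u_pred (k : ℤ) :
    rot (u N (k - 1)) = Real.cos (dl N) • rot (u N k) + Real.sin (dl N) • u N k := by
  simp [u, rot, sub_mul, cos_sub, sin_sub, Prod.ext_iff]
  constructor <;> ring

theorem u_unit (k : ℤ) : (u N k).1 ^ 2 + (u N k).2 ^ 2 = 1 := by simp [u]

theorem dt_u_vv (h : ℤ → ℝ) (k : ℤ) : dt (u N k) (vv N h k) = h k := by
  have := u_unit (N := N) k
  simp [dt, vv, rot]
  linear_combination (h k) * this

section
variable (hN : 2 ≤ N) {h : ℤ → ℝ}
include hN

theorem vv_pred (h : ℤ → ℝ) (k : ℤ) :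
    vv N h (k - 1) = h k • u N k + (cc N h k - ell N h k) • rot (u N k) := by
  have hs := (sin_dl_pos hN).ne'
  rw [vv, rot_u_pred, u_pred, cc, cc, ell, sub_add_cancel]
  simp only [smul_add, smul_sub, smul_smul]
  match_scalars <;> field_simp <;> first | ring1 | (rw [Real.sin_sq]; ring)

theorem vv_sub (h : ℤ → ℝ) (k : ℤ) :
    vv N h k = vv N h (k - 1) + ell N h k • rot (u N k) := by
  rw [vv_pred hN, vv]; module

theorem dt_u_vv_pred (h : ℤ → ℝ) (k : ℤ) : dt (u N k) (vv N h (k - 1)) = h k := by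
  have := u_unit (N := N) k
  rw [vv_pred hN]
  simp [dt, rot]
  linear_combination (h k) * this

theorem cr_vv (h : ℤ → ℝ) (k : ℤ) :
    cr (vv N h (k - 1)) (vv N h k) = ell N h k * h k := by
  have := dt_u_vv_pred hN h k
  rw [vv_sub hN h k]
  simp [cr, rot, dt] at this ⊢
  linear_combination (ell N h k) * this

theorem vv_add_N (hp : ∀ k, h (k + N) = h k) (k : ℤ) : vv N h (k + N) = -vv N h k := by
  have : h (k + N + 1) = h (k + 1) := by rw [add_right_comm]; exact hp _
  simp [vv, cc, hp, this, u_add_N hN, rot, Prod.ext_iff]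
  constructor <;> ring

theorem vv_add_two_mul (hp : ∀ k, h (k + N) = h k) (k q : ℤ) :
    vv N h (k + 2 * N * q) = vv N h k := by
  have h2 : Function.Periodic (vv N h) (2 * N : ℤ) := fun k => by
    rw [two_mul, ← add_assoc, vv_add_N hN hp, vv_add_N hN hp, neg_neg]
  rw [mul_comm (2 * (N : ℤ))]
  exact h2.int_mul q k

theorem sinus {D : ℕ → ℝ} (h0 : D 0 = 0) (h1 : 0 ≤ D 1)
    (hrec : ∀ i, 0 ≤ D (i + 2) + D i - 2 * Real.cos (dl N) * D (i + 1)) :
    ∀ i ≤ N, 0 ≤ D i := by
  have hW : ∀ i, i ≤ N → 0 ≤ D (i + 1) * Real.sin (i * dl N) - D i * Real.sin ((i + 1 : ℕ) * dl N) := by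
    intro i
    induction i with
    | zero => intro; simp [h0]
    | succ i ih =>
      intro hi
      have hs := mul_nonneg (sin_nat_nonneg hN hi) (hrec i)
      have e : Real.sin ((i + 1 + 1 : ℕ) * dl N) + Real.sin (i * dl N)
          = 2 * Real.cos (dl N) * Real.sin ((i + 1 : ℕ) * dl N) := by
        have e1 : ((i + 1 + 1 : ℕ) : ℝ) * dl N = ((i + 1 : ℕ) : ℝ) * dl N + dl N := by push_cast; ring
        have e2 : (i : ℝ) * dl N = ((i + 1 : ℕ) : ℝ) * dl N - dl N := by push_cast; ring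
        rw [e1, e2, sin_add, sin_sub]; ring
      have := ih (by omega)
      linear_combination this + hs + (D (i + 1)) * e
  intro i
  induction i with
  | zero => intro; exact h0.ge
  | succ i ih =>
    intro hi
    rcases Nat.eq_zero_or_pos i with rfl | hi0
    · exact h1
    · have h2 := hW i (by omega)
      have h3 := mul_nonneg (ih (by omega)) (sin_nat_nonneg hN hi)
      nlinarith [sin_nat_pos hN hi0 (by omega : i < N)]

end

variable {h : ℤ → ℝ}

theorem Adm.vv_mem (hA : Adm N h) (hN : 2 ≤ N) (k : ℤ) : vv N h k ∈ Pol N h := by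
  set D : ℤ → ℝ := fun j => h j - dt (u N j) (vv N h k) with hD
  have hrec : ∀ j, 0 ≤ D (j + 1) + D (j - 1) - 2 * Real.cos (dl N) * D j := fun j => by
    have h2 : D (j + 1) + D (j - 1) - 2 * Real.cos (dl N) * D j
        = Real.sin (dl N) * ell N h j := by
      rw [ell, mul_div_cancel₀ _ (sin_dl_pos hN).ne']
      simp [hD, dt, u_succ, u_pred, rot]
      ring
    rw [h2]
    exact mul_nonneg (sin_dl_pos hN).le (hA.len j)
  have e0 : D k = 0 := by simp [hD, dt_u_vv]
  have e1 : D (k + 1) = 0 := by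
    have := dt_u_vv_pred hN h (k + 1)
    simp only [add_sub_cancel_right] at this
    simp [hD, this]
  have f1 : ∀ i : ℕ, i ≤ N → 0 ≤ D (k + i) := by
    refine sinus hN (by simpa using e0) (by simpa using e1.ge) fun i => ?_
    have := hrec (k + i + 1)
    convert this using 3 <;> push_cast <;> ring_nf
  have f2 : ∀ i : ℕ, i ≤ N → 0 ≤ D (k + 1 - i) := by
    refine sinus hN (by simpa using e1) (by simpa using e0.ge) fun i => ?_
    have := hrec (k - i)
    convert this using 1
    push_cast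
    ring_nf
  intro j
  have hper : ∀ q : ℤ, D (j + 2 * N * q) = D j := fun q => by
    have h2 : Function.Periodic h (2 * N : ℤ) := fun k => by rw [two_mul, ← add_assoc, hA.per, hA.per]
    have h3 : h (j + 2 * N * q) = h j := by rw [mul_comm (2 * (N : ℤ))]; exact h2.int_mul q j
    simp only [hD, u_add_two_mul hN, h3]
  set b : ℤ := k + 1 - N
  set r : ℤ := (j - b) % (2 * N)
  have hr0 : 0 ≤ r := Int.emod_nonneg _ (by omega)
  have hr1 : r < 2 * N := Int.emod_lt_of_pos _ (by omega)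
  have hj : j + 2 * N * (-((j - b) / (2 * N))) = b + r := by
    have := Int.emod_add_mul_ediv (j - b) (2 * N)
    linear_combination -this
  have : 0 ≤ D (b + r) := by
    rcases le_or_gt (b + r) (k + 1) with hle | hgt
    · have := f2 (k + 1 - (b + r)).toNat (by omega)
      rwa [show k + 1 - ((k + 1 - (b + r)).toNat : ℤ) = b + r by omega] at this
    · have := f1 (b + r - k).toNat (by omega)
      rwa [show k + ((b + r - k).toNat : ℤ) = b + r by omega] at this
  rw [← hj, hper] at this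
  simp only [hD] at this
  linarith

theorem Pol.convex (N : ℕ) (h : ℤ → ℝ) : Convex ℝ (Pol N h) := by
  intro x hx y hy a b ha hb hab k
  have h1 := mul_le_mul_of_nonneg_left (hx k) ha
  have h2 := mul_le_mul_of_nonneg_left (hy k) hb
  have h3 : dt (u N k) (a • x + b • y) = a * dt (u N k) x + b * dt (u N k) y := by
    simp [dt]; ring
  rw [h3]
  calc _ ≤ a * h k + b * h k := add_le_add h1 h2
    _ = h k := by rw [← add_mul, hab, one_mul]

/-- The triangle `0, v_{k-1}, v_k`. -/
def Tri (N : ℕ) (h : ℤ → ℝ) (k : ℤ) : Set (ℝ × ℝ) :=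
  pair (vv N h (k - 1)) (vv N h k) '' {z | 0 ≤ z.1 ∧ 0 ≤ z.2 ∧ z.1 + z.2 ≤ 1}

theorem Adm.cr_nonneg (hA : Adm N h) (hN : 2 ≤ N) (a : ℤ) {d : ℕ} (hd : d ≤ N) :
    0 ≤ cr (vv N h a) (vv N h (a + d)) := by
  set g : ℕ → ℝ := fun i => h a * Real.cos (i * dl N) + cc N h a * Real.sin (i * dl N) with hg
  set φ : ℕ → ℝ := fun i => cr (vv N h a) (vv N h (a + i)) with hφ
  have hstep : ∀ i, φ (i + 1) = φ i + ell N h (a + (i + 1 : ℕ)) * g (i + 1) := fun i => by
    have h0 := vv_sub hN h (a + (i + 1 : ℕ))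
    have h1 : a + ((i + 1 : ℕ) : ℤ) - 1 = a + i := by omega
    rw [h1] at h0
    simp only [hφ, h0]
    have h2 := u_unit (N := N) a
    have h3 : ((a + ((i + 1 : ℕ) : ℤ) : ℤ) : ℝ) * dl N = a * dl N + ((i + 1 : ℕ) : ℝ) * dl N := by
      push_cast; ring
    simp only [cr, rot, vv, u, hg, Prod.fst_add, Prod.snd_add, Prod.smul_fst, Prod.smul_snd,
      smul_eq_mul, h3, cos_add, sin_add] at h2 ⊢
    linear_combination (ell N h (a + ((i + 1 : ℕ) : ℤ)) * g (i + 1)) * h2
  have mono : ∀ i i' : ℕ, 0 < i → i ≤ i' → i' ≤ N → g i ≤ 0 → g i' ≤ 0 := by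
    intro i i' hi0 hii hiN hgi
    rcases eq_or_lt_of_le (hii.trans hiN) with hi | hi
    · rwa [le_antisymm (hiN.trans hi.ge) hii]
    have e : g i' * Real.sin (i * dl N)
        = g i * Real.sin (i' * dl N) - h a * Real.sin ((i' - i : ℕ) * dl N) := by
      rw [Nat.cast_sub hii, sub_mul, sin_sub]
      simp only [hg]; ring
    have h1 := mul_nonpos_of_nonpos_of_nonneg hgi (sin_nat_nonneg hN hiN)
    have h2 := mul_nonneg (hA.pos a).le (sin_nat_nonneg hN (by omega : i' - i ≤ N))
    exact nonpos_of_mul_nonpos_left (by linarith : g i' * Real.sin (i * dl N) ≤ 0) (sin_nat_pos hN hi0 hi)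
  have h0 : φ 0 = 0 := by simp [hφ, cr]; ring
  have hlast : φ N = 0 := by
    simp only [hφ, vv_add_N hN hA.per]
    simp [cr]; ring
  rcases Nat.eq_zero_or_pos d with rfl | hd0
  · exact h0.ge
  rcases le_or_gt (g d) 0 with hgd | hgd
  · have : ∀ i, d + i ≤ N → φ (d + i) ≤ φ d := by
      intro i
      induction i with
      | zero => intro; rfl
      | succ i ih =>
        intro hi
        have := mul_nonpos_of_nonneg_of_nonpos (hA.len (a + (d + i + 1 : ℕ)))
          (mono d (d + i + 1) hd0 (by omega) (by omega) hgd)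
        have := ih (by omega)
        have := hstep (d + i)
        rw [← add_assoc]; linarith
    have := this (N - d) (by omega)
    rw [Nat.add_sub_cancel' hd, hlast] at this
    exact this
  · have : ∀ i, i ≤ d → 0 ≤ φ i := by
      intro i
      induction i with
      | zero => intro; exact h0.ge
      | succ i ih =>
        intro hi
        have hgi : 0 ≤ g (i + 1) := by
          by_contra hneg
          exact absurd (mono (i + 1) d (by omega) hi hd (le_of_lt (not_le.1 hneg))) (not_le.2 hgd)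
        have := mul_nonneg (hA.len (a + (i + 1 : ℕ))) hgi
        have := ih (by omega)
        have := hstep i
        linarith
    exact this d le_rfl

theorem Adm.cover (hA : Adm N h) (hN : 2 ≤ N) {x : ℝ × ℝ} (hx : x ∈ Pol N h) :
    ∃ k, x ∈ Tri N h k := by
  by_cases hall : ∀ k, cr (vv N h k) x = 0
  · refine ⟨0, 0, ⟨le_rfl, le_rfl, by simp⟩, ?_⟩
    rw [map_zero]
    by_contra hx0
    have hcol : ∀ k, vv N h k = vv N h (k - 1) := fun k => by
      have h1 : cr (vv N h (k - 1)) (vv N h k) = 0 := by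
        have a1 := hall (k - 1)
        have a2 := hall k
        simp only [cr] at a1 a2 ⊢
        have b1 : x.1 * ((vv N h (k - 1)).1 * (vv N h k).2 - (vv N h (k - 1)).2 * (vv N h k).1) = 0 := by
          linear_combination (vv N h k).1 * a1 - (vv N h (k - 1)).1 * a2
        have b2 : x.2 * ((vv N h (k - 1)).1 * (vv N h k).2 - (vv N h (k - 1)).2 * (vv N h k).1) = 0 := by
          linear_combination (vv N h k).2 * a1 - (vv N h (k - 1)).2 * a2
        by_contra hne
        exact hx0 (Prod.ext ((mul_eq_zero.1 b1).resolve_right hne) ((mul_eq_zero.1 b2).resolve_right hne)).symm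
      rw [cr_vv hN] at h1
      rw [vv_sub hN h k, (mul_eq_zero.1 h1).resolve_right (hA.pos k).ne']
      simp
    have : ∀ i : ℕ, vv N h i = vv N h 0 := fun i => by
      induction i with
      | zero => simp
      | succ i ih => rw [hcol]; simpa using ih
    have h2 := this N
    have h3 := vv_add_N hN hA.per 0
    rw [zero_add, h2] at h3
    have h4 : vv N h 0 = 0 := by simpa [eq_neg_iff_add_eq_zero, ← two_smul ℝ] using h3
    have := dt_u_vv (N := N) h 0
    rw [h4] at this
    simp [dt] at this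
    linarith [hA.pos 0]
  push Not at hall
  obtain ⟨k₀, hk₀⟩ := hall
  obtain ⟨j, hj⟩ : ∃ j, cr (vv N h j) x < 0 := by
    rcases lt_or_gt_of_ne hk₀ with hlt | hgt
    · exact ⟨k₀, hlt⟩
    · refine ⟨k₀ + N, ?_⟩
      rw [vv_add_N hN hA.per]; simp [cr] at hgt ⊢; linarith
  have hj' : 0 ≤ cr (vv N h (j - N)) x := by
    have := vv_add_N hN hA.per (j - N)
    rw [sub_add_cancel] at this
    rw [this] at hj
    simp [cr] at hj ⊢; linarith
  classical
  have hex : ∃ i : ℕ, cr (vv N h (j - N + i)) x < 0 := ⟨N, by simpa using hj⟩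
  obtain ⟨i, hi, hmin⟩ : ∃ i : ℕ, cr (vv N h (j - N + i)) x < 0 ∧
      ∀ m < i, ¬ cr (vv N h (j - N + m)) x < 0 :=
    ⟨Nat.find hex, Nat.find_spec hex, fun m hm => Nat.find_min hex hm⟩
  rcases i with _ | i
  · simp at hi; linarith
  have hp := not_lt.1 (hmin i (Nat.lt_succ_self i))
  set k : ℤ := j - N + (i + 1 : ℕ) with hk
  have hk1 : j - (N : ℤ) + (i : ℤ) = k - 1 := by omega
  rw [hk1] at hp
  have hl : 0 < ell N h k := (hA.len k).lt_of_ne' fun h0 => by
    have := vv_sub hN h k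
    rw [h0, zero_smul, add_zero] at this
    rw [this] at hi; linarith
  set D := cr (vv N h (k - 1)) (vv N h k) with hD
  have hD0 : 0 < D := by rw [hD, cr_vv hN]; exact mul_pos hl (hA.pos k)
  set a := cr x (vv N h k) / D
  set b := cr (vv N h (k - 1)) x / D
  have he : pair (vv N h (k - 1)) (vv N h k) (a, b) = x := by
    have hne := hD0.ne'
    simp only [pair_apply, a, b]
    ext <;> simp only [Prod.fst_add, Prod.snd_add, Prod.smul_fst, Prod.smul_snd, smul_eq_mul] <;>
      rw [div_mul_eq_mul_div, div_mul_eq_mul_div, ← add_div, div_eq_iff hne] <;>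
      simp only [hD, cr] <;> ring
  have ha : 0 ≤ a := div_nonneg (by simp [cr] at hi ⊢; linarith) hD0.le
  have hb : 0 ≤ b := div_nonneg hp hD0.le
  refine ⟨k, (a, b), ⟨ha, hb, ?_⟩, he⟩
  have h1 := hx k
  rw [← he, pair_apply] at h1
  have h2 := dt_u_vv (N := N) h k
  have h3 := dt_u_vv_pred hN h k
  simp [dt] at h1 h2 h3
  exact le_of_mul_le_mul_right (by linear_combination h1 - a * h3 - b * h2) (hA.pos k)

theorem cone_unique (hA : Adm N h) (hN : 2 ≤ N) {x : ℝ × ℝ} {a : ℤ} {d : ℕ} (hd0 : 1 ≤ d)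
    (hd : d ≤ N) (h1 : 0 < cr (vv N h a) x) (h2 : cr (vv N h (a + 1)) x < 0)
    (h3 : 0 < cr (vv N h (a + d)) x) : False := by
  have c1 : 0 < cr (vv N h a) (vv N h (a + 1)) := by
    have h4 := hA.cr_nonneg hN a (d := 1) (by omega)
    refine lt_of_le_of_ne (by simpa using h4) fun h0 => ?_
    have h5 := cr_vv hN h (a + 1)
    rw [add_sub_cancel_right, ← h0] at h5
    have h6 := vv_sub hN h (a + 1)
    rw [add_sub_cancel_right, (mul_eq_zero.1 h5.symm).resolve_right (hA.pos _).ne', zero_smul,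
      add_zero] at h6
    rw [h6] at h2; linarith
  have c2 : 0 ≤ cr (vv N h (a + 1)) (vv N h (a + d)) := by
    have := hA.cr_nonneg hN (a + 1) (d := d - 1) (by omega)
    rwa [show a + 1 + ((d - 1 : ℕ) : ℤ) = a + d by omega] at this
  have c3 := hA.cr_nonneg hN a hd
  have := mul_pos c1 h3
  have := mul_nonneg c2 h1.le
  have := mul_nonneg c3 (neg_nonneg.2 h2.le)
  have key : cr (vv N h a) (vv N h (a + 1)) * cr (vv N h (a + d)) x
      + cr (vv N h (a + 1)) (vv N h (a + d)) * cr (vv N h a) x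
      + cr (vv N h a) (vv N h (a + d)) * (-cr (vv N h (a + 1)) x) = 0 := by
    simp only [cr]; ring
  linarith

/-- The constant in the area formula. -/
noncomputable def κ : ℝ≥0∞ := 2 * volume {z : ℝ × ℝ | 0 ≤ z.1 ∧ 0 ≤ z.2 ∧ z.1 + z.2 ≤ 1}

theorem std_compact : IsCompact {z : ℝ × ℝ | 0 ≤ z.1 ∧ 0 ≤ z.2 ∧ z.1 + z.2 ≤ 1} := by
  refine IsCompact.of_isClosed_subset (isCompact_Icc (a := (0, 0)) (b := (1, 1))) ?_ ?_
  · exact (isClosed_le continuous_const continuous_fst).inter
      ((isClosed_le continuous_const continuous_snd).inter (isClosed_le (continuous_fst.add continuous_snd) continuous_const))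
  · rintro z ⟨h1, h2, h3⟩
    exact ⟨⟨h1, h2⟩, ⟨by linarith, by linarith⟩⟩

theorem κ_ne_top : κ ≠ ⊤ := ENNReal.mul_ne_top (by simp) std_compact.measure_lt_top.ne

theorem κ_ne_zero : κ ≠ 0 := by
  refine mul_ne_zero two_ne_zero (ne_of_gt ?_)
  have hsub : Icc (0 : ℝ) (1/2) ×ˢ Icc (0 : ℝ) (1/2) ⊆
      {z : ℝ × ℝ | 0 ≤ z.1 ∧ 0 ≤ z.2 ∧ z.1 + z.2 ≤ 1} := by
    rintro ⟨a, b⟩ ⟨⟨ha, ha'⟩, hb, hb'⟩
    exact ⟨ha, hb, by dsimp only; linarith⟩
  refine lt_of_lt_of_le ?_ (measure_mono hsub)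
  rw [Measure.volume_eq_prod, Measure.prod_prod, Real.volume_Icc]
  simp

theorem sum_shift {F : ℤ → ℝ} (hF : ∀ k, F (k + N) = F k) :
    ∑ i ∈ range N, F ((i : ℤ) + 1) = ∑ i ∈ range N, F i := by
  have h1 := sum_range_succ' (fun i : ℕ => F i) N
  have h2 := sum_range_succ (fun i : ℕ => F i) N
  have h3 : F N = F 0 := by simpa using hF 0
  simp only [Nat.cast_succ, Nat.cast_zero] at h1
  linarith

theorem Adm.volume_eq (hA : Adm N h) (hN : 2 ≤ N) :
    volume (Pol N h) = ENNReal.ofReal (B N h h) * κ := by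
  have hv : ∀ k, vv N h k ≠ 0 := fun k h0 => by
    have := dt_u_vv (N := N) h k
    rw [h0] at this
    simp [dt] at this
    linarith [hA.pos k]
  have hmem : ∀ k, Tri N h k ⊆ Pol N h := by
    rintro k _ ⟨z, ⟨h1, h2, h3⟩, rfl⟩
    intro j
    have a1 := mul_le_mul_of_nonneg_left (hA.vv_mem hN (k - 1) j) h1
    have a2 := mul_le_mul_of_nonneg_left (hA.vv_mem hN k j) h2
    have a3 := mul_nonneg (sub_nonneg.2 h3) (hA.pos j).le
    simp [pair_apply, dt] at a1 a2 ⊢
    linarith
  have heq : Pol N h = ⋃ i ∈ range (2 * N), Tri N h (i : ℕ) := by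
    refine Subset.antisymm (fun x hx => ?_) (iUnion₂_subset fun i _ => hmem _)
    obtain ⟨k, hk⟩ := hA.cover hN hx
    have hr0 : 0 ≤ k % (2 * N : ℤ) := Int.emod_nonneg _ (by omega)
    have hr1 : k % (2 * N : ℤ) < 2 * N := Int.emod_lt_of_pos _ (by omega)
    refine mem_iUnion₂.2 ⟨(k % (2 * N : ℤ)).toNat, Finset.mem_range.2 (by omega), ?_⟩
    have e := Int.emod_add_mul_ediv k (2 * N)
    unfold Tri at hk ⊢
    rw [Int.toNat_of_nonneg hr0]
    rwa [← e, vv_add_two_mul hN hA.per,
      show k % (2 * N : ℤ) + 2 * N * (k / (2 * N)) - 1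
        = k % (2 * N : ℤ) - 1 + 2 * N * (k / (2 * N)) by ring, vv_add_two_mul hN hA.per] at hk
  have htc : ∀ k, IsCompact (Tri N h k) := fun k =>
    std_compact.image (LinearMap.continuous_of_finiteDimensional _)
  have hvol : ∀ k, volume (Tri N h k) = ENNReal.ofReal (h k * ell N h k) *
      volume {z : ℝ × ℝ | 0 ≤ z.1 ∧ 0 ≤ z.2 ∧ z.1 + z.2 ≤ 1} := fun k => by
    rw [Tri, Measure.addHaar_image_linearMap, det_pair, cr_vv hN, mul_comm (h k),
      abs_of_nonneg (mul_nonneg (hA.len k) (hA.pos k).le)]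
  have hcone : ∀ k, ∀ x ∈ Tri N h k, (0 ≤ cr (vv N h (k - 1)) x ∧ cr (vv N h k) x ≤ 0) := by
    rintro k _ ⟨z, ⟨h1, h2, -⟩, rfl⟩
    have hD : 0 ≤ cr (vv N h (k - 1)) (vv N h k) := by
      rw [cr_vv hN]; exact mul_nonneg (hA.len k) (hA.pos k).le
    have a1 := mul_nonneg h1 hD
    have a2 := mul_nonneg h2 hD
    simp [pair_apply, cr] at a1 a2 ⊢
    constructor <;> linarith
  have hdis : (↑(range (2 * N)) : Set ℕ).Pairwise
      (Function.onFun (AEDisjoint volume) fun i : ℕ => Tri N h i) := by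
    intro i hi i' hi' hne
    simp only [Finset.coe_range, Set.mem_Iio] at hi hi'
    refine measure_mono_null ?_ (measure_union_null (measure_union_null (null_line (hv ((i:ℤ) - 1))) (null_line (hv i)))
      (measure_union_null (null_line (hv ((i':ℤ) - 1))) (null_line (hv i'))))
    rintro x ⟨hx, hx'⟩
    by_contra hc
    simp only [Set.mem_union, mem_ofPred_eq, not_or] at hc
    obtain ⟨⟨c1, c2⟩, c3, c4⟩ := hc
    obtain ⟨a1, a2⟩ := hcone _ x hx
    obtain ⟨a3, a4⟩ := hcone _ x hx'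
    replace a1 := lt_of_le_of_ne a1 (Ne.symm c1)
    replace a2 := lt_of_le_of_ne a2 c2
    replace a3 := lt_of_le_of_ne a3 (Ne.symm c3)
    replace a4 := lt_of_le_of_ne a4 c4
    have main : ∀ i i' : ℤ, i < i' → i' < i + 2 * N → 0 < cr (vv N h (i - 1)) x →
        cr (vv N h i) x < 0 → 0 < cr (vv N h (i' - 1)) x → cr (vv N h i') x < 0 → False := by
      intro i i' hlt hgt b1 b2 b3 b4
      rcases le_or_gt (i' - i) N with hd | hd
      · refine cone_unique hA hN (a := i - 1) (d := (i' - i).toNat) (by omega) (by omega) b1 ?_ ?_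
        · rwa [sub_add_cancel]
        · rwa [show i - 1 + ((i' - i).toNat : ℤ) = i' - 1 by omega]
      · refine cone_unique hA hN (a := i' - 1) (d := (i + 2 * N - i').toNat) (by omega) (by omega) b3 ?_ ?_
        · rwa [sub_add_cancel]
        · rw [show i' - 1 + ((i + 2 * N - i').toNat : ℤ) = i - 1 + 2 * N * 1 by omega,
            vv_add_two_mul hN hA.per]
          exact b1
    rcases Nat.lt_or_gt_of_ne hne with hl | hl
    · exact main i i' (by omega) (by omega) a1 a2 a3 a4
    · exact main i' i (by omega) (by omega) a3 a4 a1 a2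
  rw [heq, measure_biUnion_finset₀ hdis fun i _ => (htc _).measurableSet.nullMeasurableSet,
    Finset.sum_congr rfl fun i _ => hvol _, ← Finset.sum_mul,
    ← ENNReal.ofReal_sum_of_nonneg fun i _ => mul_nonneg (hA.pos _).le (hA.len _)]
  have hsum : ∑ i ∈ range (2 * N), h i * ell N h i = 2 * B N h h := by
    rw [two_mul N, sum_range_add, B, two_mul]
    refine congrArg₂ _ rfl (Finset.sum_congr rfl fun i _ => ?_)
    have e : ((N + i : ℕ) : ℤ) = (i : ℤ) + N := by push_cast; ring
    have e1 : h ((i : ℤ) + N + 1) = h (i + 1) := by rw [add_right_comm]; exact hA.per _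
    have e2 : h ((i : ℤ) + N - 1) = h (i - 1) := by rw [add_sub_right_comm]; exact hA.per _
    rw [e, ell, ell, hA.per, e1, e2]
  rw [hsum, κ, ENNReal.ofReal_mul two_pos.le, ENNReal.ofReal_ofNat]
  ring

theorem B_symm {f g : ℤ → ℝ} (hf : ∀ k, f (k + N) = f k) (hg : ∀ k, g (k + N) = g k) :
    B N f g = B N g f := by
  have h1 := sum_shift (N := N) (F := fun k => f k * g (k - 1)) fun k => by
    simp only [hf, add_sub_right_comm, hg]
  have h2 := sum_shift (N := N) (F := fun k => g k * f (k - 1)) fun k => by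
    simp only [hg, add_sub_right_comm, hf]
  simp only [add_sub_cancel_right] at h1 h2
  simp only [B, ell, ← mul_div_assoc, ← Finset.sum_div]
  congr 1
  simp only [mul_sub, mul_add, Finset.sum_sub_distrib, Finset.sum_add_distrib]
  have h3 : ∑ i ∈ range N, f i * (2 * Real.cos (dl N) * g i)
      = ∑ i ∈ range N, g i * (2 * Real.cos (dl N) * f i) :=
    Finset.sum_congr rfl fun i _ => by ring
  have h4 : ∑ i ∈ range N, g ((i : ℤ) + 1) * f i = ∑ i ∈ range N, f i * g ((i : ℤ) + 1) :=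
    Finset.sum_congr rfl fun i _ => mul_comm _ _
  have h5 : ∑ i ∈ range N, f ((i : ℤ) + 1) * g i = ∑ i ∈ range N, g i * f ((i : ℤ) + 1) :=
    Finset.sum_congr rfl fun i _ => mul_comm _ _
  linarith

end Vale.Agent.P227
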