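import Vale.Agent.P227.Basic
import Vale.Agent.P227.Polygon
import Vale.Agent.P262.Exact.BalancePL

/-! # P227: the planar logarithmic Brunn–Minkowski inequality -/

open Set MeasureTheory Filter Real
open scoped ENNReal Topology

namespace Vale.Agent.P227

variable {N : ℕ} {h : ℤ → ℝ}

/-- Dot product with a fixed vector, as a functional. -/
def dtL (p : ℝ × ℝ) : (ℝ × ℝ) →ₗ[ℝ] ℝ :=
  p.1 • LinearMap.fst ℝ ℝ ℝ + p.2 • LinearMap.snd ℝ ℝ ℝ

theorem dtL_apply (p x : ℝ × ℝ) : dtL p x = dt p x := rfl

theorem dtL_neg (p : ℝ × ℝ) : dtL (-p) = -dtL p := by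
  refine LinearMap.ext fun x => ?_
  simp [dtL_apply, dt]; ring

theorem continuous_dt (p : ℝ × ℝ) : Continuous (dt p) := by unfold dt; fun_prop

/-- Support numbers in the `2N` directions. -/
noncomputable def smp (N : ℕ) (K : Set (ℝ × ℝ)) (k : ℤ) : ℝ := supp K (dtL (u N k))

theorem Pol.isClosed (N : ℕ) (h : ℤ → ℝ) : IsClosed (Pol N h) := by
  have : Pol N h = ⋂ k, {x | dt (u N k) x ≤ h k} := by ext x; simp [Pol]
  rw [this]
  exact isClosed_iInter fun k => isClosed_le (continuous_dt _) continuous_const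

theorem Pol.sym (hN : 2 ≤ N) (hp : ∀ k, h (k + N) = h k) : Sym (Pol N h) := by
  refine ⟨?_, Pol.convex N h, fun x hx k => ?_⟩
  · refine Metric.isCompact_of_isClosed_isBounded (Pol.isClosed N h) ?_
    rw [isBounded_iff_forall_norm_le]
    set s := Real.sin (dl N)
    refine ⟨|h 0| + (|h 1| + |h 0|) / s, fun x hx => ?_⟩
    have hs : 0 < s := sin_dl_pos hN
    have a1 := hx 0
    have a2 := hx (0 + N)
    have a3 := hx 1
    have a4 := hx (1 + N)
    rw [u_add_N hN, hp] at a2 a4
    simp [dt, u] at a1 a2 a3 a4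
    have b1 : |x.1| ≤ |h 0| := abs_le.2 ⟨by linarith [le_abs_self (h 0)], a1.trans (le_abs_self _)⟩
    have b2 : |Real.cos (dl N) * x.1| ≤ |h 0| := by
      rw [abs_mul]
      calc _ ≤ 1 * |h 0| := mul_le_mul (abs_cos_le_one _) b1 (abs_nonneg _) zero_le_one
        _ = _ := one_mul _
    rw [abs_le] at b2
    have b3 : |x.2| ≤ (|h 1| + |h 0|) / s := by
      rw [le_div_iff₀ hs]
      calc |x.2| * s = |s * x.2| := by rw [abs_mul, abs_of_pos hs, mul_comm]
        _ ≤ _ := abs_le.2 ⟨by linarith [le_abs_self (h 1)], by linarith [le_abs_self (h 1)]⟩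
    have c1 : 0 ≤ (|h 1| + |h 0|) / s := by positivity
    rw [Prod.norm_def, Real.norm_eq_abs, Real.norm_eq_abs]
    exact max_le (by linarith) (by linarith [abs_nonneg (h 0)])
  · have := hx (k + N)
    rw [u_add_N hN, hp] at this
    simp [dt] at this ⊢; linarith

theorem mem_Pol_of_range (hN : 2 ≤ N) (hp : ∀ k, h (k + N) = h k) {x : ℝ × ℝ}
    (hx : ∀ i ∈ Finset.range (2 * N), dt (u N (i : ℕ)) x ≤ h (i : ℕ)) : x ∈ Pol N h := fun k => by
  have hr0 : 0 ≤ k % (2 * N : ℤ) := Int.emod_nonneg _ (by omega)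
  have hr1 : k % (2 * N : ℤ) < 2 * N := Int.emod_lt_of_pos _ (by omega)
  have := hx (k % (2 * N : ℤ)).toNat (Finset.mem_range.2 (by omega))
  rw [Int.toNat_of_nonneg hr0] at this
  have e := Int.emod_add_mul_ediv k (2 * N)
  have h2 : Function.Periodic h (2 * N : ℤ) := fun k => by rw [two_mul, ← add_assoc, hp, hp]
  rw [← e, u_add_two_mul hN]
  have h3 : h (k % (2 * N : ℤ) + 2 * N * (k / (2 * N))) = h (k % (2 * N : ℤ)) := by
    rw [mul_comm (2 * (N : ℤ))]; exact h2.int_mul _ _
  rw [h3]; exact this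

theorem Pol.nhds (hN : 2 ≤ N) (hp : ∀ k, h (k + N) = h k) {x : ℝ × ℝ}
    (hx : ∀ i ∈ Finset.range (2 * N), dt (u N (i : ℕ)) x < h (i : ℕ)) : Pol N h ∈ 𝓝 x := by
  have : ∀ᶠ y in 𝓝 x, ∀ i ∈ Finset.range (2 * N), dt (u N (i : ℕ)) y < h (i : ℕ) :=
    (Filter.eventually_all_finset _).2 fun _ hi =>
      (continuous_dt _).continuousAt.eventually_lt continuousAt_const (hx _ hi)
  exact mem_of_superset this fun y hy => mem_Pol_of_range hN hp fun i hi => (hy i hi).le

theorem Adm.B_nonneg (hA : Adm N h) : 0 ≤ B N h h :=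
  Finset.sum_nonneg fun i _ => mul_nonneg (hA.pos _).le (hA.len _)

theorem Adm.B_pos (hA : Adm N h) (hN : 2 ≤ N) : 0 < B N h h := by
  refine hA.B_nonneg.lt_of_ne fun h0 => ?_
  have h1 := Measure.measure_pos_of_mem_nhds (volume : Measure (ℝ × ℝ))
    (Pol.nhds (x := 0) hN hA.per fun i _ => by simpa [dt] using hA.pos _)
  rw [hA.volume_eq hN, ← h0] at h1
  simp at h1

theorem Adm.comb {a b : ℤ → ℝ} (ha : Adm N a) (hb : Adm N b) {s t : ℝ} (hs : 0 ≤ s) (ht : 0 ≤ t)
    (hst : 0 < s + t) : Adm N (fun k => s * a k + t * b k) := by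
  refine ⟨fun k => by simp only [ha.per, hb.per], fun k => ?_, fun k => ?_⟩
  · rcases eq_or_lt_of_le hs with rfl | h'
    · simpa using mul_pos (by linarith : 0 < t) (hb.pos k)
    · exact add_pos_of_pos_of_nonneg (mul_pos h' (ha.pos k)) (mul_nonneg ht (hb.pos k).le)
  · have : ell N (fun k => s * a k + t * b k) k = s * ell N a k + t * ell N b k := by
      simp only [ell]; ring
    rw [this]
    exact add_nonneg (mul_nonneg hs (ha.len k)) (mul_nonneg ht (hb.len k))

theorem B_comb_left (a b g : ℤ → ℝ) (s t : ℝ) :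
    B N (fun k => s * a k + t * b k) g = s * B N a g + t * B N b g := by
  simp only [B, add_mul, Finset.sum_add_distrib, mul_assoc, Finset.mul_sum]

theorem B_comb_right (a b g : ℤ → ℝ) (s t : ℝ) :
    B N g (fun k => s * a k + t * b k) = s * B N g a + t * B N g b := by
  simp only [B, Finset.mul_sum, ← Finset.sum_add_distrib, ell]
  exact Finset.sum_congr rfl fun i _ => by ring

/-- Equal widths in one direction make area concave. -/
theorem mixed_ge {a b : ℤ → ℝ} (ha : Adm N a) (hb : Adm N b) (hN : 2 ≤ N) {j : ℤ}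
    (hj : a j = b j) : B N a a + B N b b ≤ 2 * B N a b := by
  set c : ℤ → ℝ := fun k => (1 / 2 : ℝ) * a k + (1 / 2 : ℝ) * b k with hc
  have hcA : Adm N c := ha.comb hb (by norm_num) (by norm_num) (by norm_num)
  set R := pair (u N j) (rot (u N j)) with hR
  have hdet : LinearMap.det R = 1 := by
    have := u_unit (N := N) j
    rw [hR, det_pair]; simp [cr, rot]; linarith
  have hRm : Measurable R := (LinearMap.continuous_of_finiteDimensional R).measurable
  have hmeas : ∀ f, MeasurableSet (R ⁻¹' Pol N f) := fun f => hRm (Pol.isClosed N f).measurableSet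
  have hvol : ∀ f, volume (Pol N f) = ∫⁻ t, volume (Prod.mk t ⁻¹' (R ⁻¹' Pol N f)) := fun f => by
    rw [← Measure.prod_apply (hmeas f), ← Measure.volume_eq_prod,
      Measure.addHaar_preimage_linearMap _ (by rw [hdet]; norm_num), hdet]
    simp
  have hfib : ∀ t, ENNReal.ofReal (1 / 2) * volume (Prod.mk t ⁻¹' (R ⁻¹' Pol N a)) +
      ENNReal.ofReal (1 / 2) * volume (Prod.mk t ⁻¹' (R ⁻¹' Pol N b)) ≤
      volume (Prod.mk t ⁻¹' (R ⁻¹' Pol N c)) := by
    intro t
    have hne : ∀ f, Adm N f → |t| ≤ f j → (Prod.mk t ⁻¹' (R ⁻¹' Pol N f)).Nonempty := by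
      intro f hf htj
      refine ⟨t / f j * dt (rot (u N j)) (vv N f j), fun k => ?_⟩
      have e : R (t, t / f j * dt (rot (u N j)) (vv N f j)) = (t / f j) • vv N f j := by
        have h2 := dt_u_vv (N := N) f j
        have h3 := u_unit (N := N) j
        have hf0 := (hf.pos j).ne'
        simp [hR, pair_apply, dt, rot, Prod.ext_iff] at h2 ⊢
        constructor
        · field_simp
          linear_combination (-(t * (u N j).1)) * h2 + (t * (vv N f j).1) * h3
        · field_simp
          linear_combination (-(t * (u N j).2)) * h2 + (t * (vv N f j).2) * h3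
      rw [e]
      have h1 := hf.vv_mem hN j k
      have h2 := hf.vv_mem hN j (k + N)
      rw [u_add_N hN, hf.per] at h2
      have h4 : |t / f j| ≤ 1 := by
        rw [abs_div, abs_of_pos (hf.pos j)]; exact (div_le_one (hf.pos j)).2 htj
      have h5 : |dt (u N k) (vv N f j)| ≤ f k :=
        abs_le.2 ⟨by simp [dt] at h2 ⊢; linarith, h1⟩
      calc dt (u N k) ((t / f j) • vv N f j) = t / f j * dt (u N k) (vv N f j) := by simp [dt]; ring
        _ ≤ |t / f j| * |dt (u N k) (vv N f j)| := (le_abs_self _).trans_eq (abs_mul _ _)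
        _ ≤ 1 * f k := mul_le_mul h4 h5 (abs_nonneg _) zero_le_one
        _ = f k := one_mul _
    rcases le_or_gt |t| (a j) with htj | htj
    · have hpt : ∀ f, MeasurableSet (Prod.mk t ⁻¹' (R ⁻¹' Pol N f)) := fun f =>
        measurable_prodMk_left (hmeas f)
      have := Vale.Agent.P262.Exact.bm1d (t := 1 / 2) (by norm_num) (by norm_num) (hpt a) (hpt b)
        (hne a ha htj) (hne b hb (hj ▸ htj)) (C := Prod.mk t ⁻¹' (R ⁻¹' Pol N c)) (fun x hx y hy k => by
          have h1 := hx k
          have h2 := hy k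
          simp [hR, hc, pair_apply, dt] at h1 h2 ⊢
          linarith)
      norm_num at this ⊢
      exact this
    · have hem : ∀ f : ℤ → ℝ, f j = a j → (∀ k, f (k + N) = f k) →
          Prod.mk t ⁻¹' (R ⁻¹' Pol N f) = ∅ := by
        intro f hf hper
        ext x
        simp only [mem_empty_iff_false, iff_false]
        intro hx
        have h1 := hx j
        have h2 := hx (j + N)
        have h3 := u_unit (N := N) j
        rw [u_add_N hN, hper, hf] at h2
        rw [hf] at h1
        simp [hR, pair_apply, dt, rot] at h1 h2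
        exact absurd (abs_le.2 ⟨by linear_combination h2 + t * h3, by linear_combination h1 - t * h3⟩ :
          |t| ≤ a j) (not_le.2 htj)
      rw [hem a rfl ha.per, hem b hj.symm hb.per]
      simp
  have key : ENNReal.ofReal (1 / 2) * volume (Pol N a) + ENNReal.ofReal (1 / 2) * volume (Pol N b)
      ≤ volume (Pol N c) := by
    rw [hvol, hvol, hvol, ← lintegral_const_mul _ (measurable_measure_prodMk_left (hmeas a)),
      ← lintegral_const_mul _ (measurable_measure_prodMk_left (hmeas b)),
      ← lintegral_add_left ((measurable_measure_prodMk_left (hmeas a)).const_mul _)]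
    exact lintegral_mono hfib
  rw [ha.volume_eq hN, hb.volume_eq hN, hcA.volume_eq hN, ← mul_assoc, ← mul_assoc, ← add_mul,
    ENNReal.mul_le_mul_iff_left κ_ne_zero κ_ne_top, ← ENNReal.ofReal_mul (by norm_num),
    ← ENNReal.ofReal_mul (by norm_num),
    ← ENNReal.ofReal_add (mul_nonneg (by norm_num) ha.B_nonneg) (mul_nonneg (by norm_num) hb.B_nonneg),
    ENNReal.ofReal_le_ofReal_iff hcA.B_nonneg] at key
  rw [hc, B_comb_left, B_comb_right, B_comb_right, B_symm hb.per ha.per] at key
  linarith

/-- The planar logarithmic Minkowski inequality for polygons with common normals. -/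
theorem logMinkowski {q g : ℤ → ℝ} (hq : Adm N q) (hg : Adm N g) (hN : 2 ≤ N) :
    B N q q / 2 * (Real.log (B N g g) - Real.log (B N q q)) ≤
      ∑ i ∈ Finset.range N, q i * ell N q i * (Real.log (g i) - Real.log (q i)) := by
  set bq := B N q q
  set bm := B N q g
  set bg := B N g g
  set P : ℝ → ℝ := fun s => bq + (2 * (bm - bq)) * s + (bq - 2 * bm + bg) * s ^ 2 with hP
  set M : ℝ → ℤ → ℝ := fun s k => (1 - s) * q k + s * g k with hM
  set w : ℕ → ℝ := fun i => q i * ell N q i with hw
  set F : ℝ → ℝ := fun s =>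
    (∑ i ∈ Finset.range N, w i * Real.log (M s i)) - bq / 2 * Real.log (P s) with hF
  set F' : ℝ → ℝ := fun s => (∑ i ∈ Finset.range N, w i * ((g i - q i) / M s i)) -
    bq / 2 * ((2 * (bm - bq) + (bq - 2 * bm + bg) * (2 * s)) / P s) with hF'
  have hMA : ∀ s ∈ Icc (0 : ℝ) 1, Adm N (M s) := fun s hs =>
    hq.comb hg (by linarith [hs.2]) hs.1 (by norm_num)
  have hPB : ∀ s, P s = B N (M s) (M s) := fun s => by
    simp only [hM, B_comb_left, B_comb_right, B_symm hg.per hq.per]
    simp only [hP, bq, bm, bg]; ring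
  have hder : ∀ s ∈ Icc (0 : ℝ) 1, HasDerivAt F (F' s) s := by
    intro s hs
    have hPd : HasDerivAt P (2 * (bm - bq) + (bq - 2 * bm + bg) * (2 * s)) s := by
      have := (((hasDerivAt_id s).const_mul (2 * (bm - bq))).const_add bq).add
        ((hasDerivAt_pow 2 s).const_mul (bq - 2 * bm + bg))
      exact (this.congr_deriv (by push_cast; ring)).congr_of_eventuallyEq
        (Eventually.of_forall fun x => by simp [hP])
    refine HasDerivAt.sub (HasDerivAt.fun_sum fun i _ => ?_) ((hPd.log ?_).const_mul _)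
    · have hMd : HasDerivAt (fun s => M s i) (g i - q i) s := by
        have := (((hasDerivAt_id s).const_sub 1).mul_const (q i)).add
          ((hasDerivAt_id s).mul_const (g i))
        exact (this.congr_deriv (by ring)).congr_of_eventuallyEq
          (Eventually.of_forall fun x => by simp [hM])
      exact (hMd.log ((hMA s hs).pos i).ne').const_mul _
    · rw [hPB]; exact ((hMA s hs).B_pos hN).ne'
  have hmono : MonotoneOn F (Icc 0 1) := by
    refine monotoneOn_of_hasDerivWithinAt_nonneg (convex_Icc _ _)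
      (fun s hs => (hder s hs).continuousAt.continuousWithinAt)
      (fun s hs => (hder s (interior_subset hs)).hasDerivWithinAt) fun s hs => ?_
    have hs' : s ∈ Icc (0:ℝ) 1 := interior_subset hs
    rw [interior_Icc] at hs
    have hA := hMA s hs'
    set BM := B N (M s) (M s)
    set BX := B N (M s) q
    have hBM : 0 < BM := hA.B_pos hN
    have hbq : 0 < bq := hq.B_pos hN
    have hpt : ∀ i : ℕ, BM * (q i / M s i) + bq * (M s i / q i) ≤ 2 * BX := fun i => by
      have hr : 0 < M s i / q i := div_pos (hA.pos i) (hq.pos i)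
      have := mixed_ge hA (hq.comb hq hr.le le_rfl (by simpa using hr)) hN (j := i)
        (by simp [div_mul_cancel₀ _ (hq.pos i).ne'])
      have b1 : B N (M s) (fun k => M s i / q i * q k + 0 * q k) = M s i / q i * BX := by
        rw [B_comb_right, zero_mul, add_zero]
      have b2 : B N (fun k => M s i / q i * q k + 0 * q k) (fun k => M s i / q i * q k + 0 * q k)
          = M s i / q i * (M s i / q i * bq) := by
        rw [B_comb_left, B_comb_right, zero_mul, zero_mul, add_zero, add_zero]
      rw [b1, b2] at this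
      have e : q i / M s i = (M s i / q i)⁻¹ := (inv_div _ _).symm
      rw [e]
      refine le_of_mul_le_mul_right ?_ hr
      rw [add_mul, mul_assoc, inv_mul_cancel₀ hr.ne']
      linarith
    have hsum : ∑ i ∈ Finset.range N, w i * (BM * (q i / M s i) + bq * (M s i / q i))
        ≤ ∑ i ∈ Finset.range N, w i * (2 * BX) :=
      Finset.sum_le_sum fun i _ => mul_le_mul_of_nonneg_left (hpt i) (mul_nonneg (hq.pos _).le (hq.len _))
    have hwr : ∑ i ∈ Finset.range N, w i * (M s i / q i) = BX := by
      refine Finset.sum_congr rfl fun i _ => ?_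
      have := (hq.pos i).ne'
      simp only [hw]; field_simp
    simp only [mul_add, Finset.sum_add_distrib, ← Finset.sum_mul, mul_left_comm (w _) BM,
      mul_left_comm (w _) bq, ← Finset.mul_sum, hwr] at hsum
    have hX : BM * (∑ i ∈ Finset.range N, w i * (q i / M s i)) ≤ bq * BX := by
      have : (∑ i ∈ Finset.range N, w i) = bq := rfl
      rw [this] at hsum
      linarith
    have e1 : s * (∑ i ∈ Finset.range N, w i * ((g i - q i) / M s i))
        = bq - ∑ i ∈ Finset.range N, w i * (q i / M s i) := by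
      rw [show bq = ∑ i ∈ Finset.range N, w i from rfl, Finset.mul_sum, ← Finset.sum_sub_distrib]
      refine Finset.sum_congr rfl fun i _ => ?_
      have := (hA.pos i).ne'
      field_simp
      simp only [hM]; ring
    have e2 : BX = (1 - s) * bq + s * bm := by
      simp only [BX, hM, B_comb_left, B_symm hg.per hq.per, bq, bm]
    have e3 := hPB s
    refine (mul_nonneg_iff_of_pos_left hs.1).1 ?_
    simp only [hF', mul_sub, e1]
    rw [sub_nonneg, ← mul_le_mul_iff_of_pos_left hBM]
    have e4 : BM * (s * (bq / 2 * ((2 * bm - 2 * bq + (bq - 2 * bm + bg) * (2 * s)) / P s)))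
        = bq * (s * (bm - bq) + (bq - 2 * bm + bg) * s ^ 2) := by
      rw [show P s = BM from e3]; field_simp
    rw [e4]
    have e5 : s * (bm - bq) + (bq - 2 * bm + bg) * s ^ 2 = BM - BX := by
      rw [e2, show BM = P s from e3.symm]; simp only [hP]; ring
    rw [e5]
    linarith
  have h01 := hmono (left_mem_Icc.2 zero_le_one) (right_mem_Icc.2 zero_le_one) zero_le_one
  simp only [hF, hM, hP] at h01
  norm_num at h01
  simp only [mul_sub, Finset.sum_sub_distrib]
  rw [show bq + 2 * (bm - bq) + (bq - 2 * bm + bg) = bg by ring] at h01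
  linarith

theorem Sym.smp_adm {K : Set (ℝ × ℝ)} (hK : Sym K) (hb : ∃ r > 0, Metric.closedBall 0 r ⊆ K)
    (hN : 2 ≤ N) : Adm N (smp N K) := by
  obtain ⟨r, hr, hrK⟩ := hb
  have hne : K.Nonempty := ⟨0, hrK (by simp [hr.le])⟩
  refine ⟨fun k => ?_, fun k => ?_, fun k => ?_⟩
  · rw [smp, u_add_N hN, dtL_neg, supp_neg hK]; rfl
  · refine lt_of_lt_of_le hr ?_
    have hmem : r • u N k ∈ K := hrK (by
      rw [Metric.mem_closedBall, dist_zero_right, norm_smul, Real.norm_eq_abs, abs_of_pos hr]
      refine mul_le_of_le_one_right hr.le ?_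
      rw [Prod.norm_def]
      exact max_le (abs_cos_le_one _) (abs_sin_le_one _))
    have h1 := le_supp hK.compact (φ := dtL (u N k)) hmem
    have h2 := u_unit (N := N) k
    simp [dtL_apply, dt] at h1
    unfold smp
    linear_combination h1 - r * h2
  · obtain ⟨x, hx, hxe⟩ := exists_supp hK.compact hne (dtL (u N k))
    refine div_nonneg ?_ (sin_dl_pos hN).le
    have h1 := le_supp hK.compact (φ := dtL (u N (k + 1))) hx
    have h2 := le_supp hK.compact (φ := dtL (u N (k - 1))) hx
    simp only [smp, dtL_apply, u_succ, u_pred] at h1 h2 hxe ⊢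
    rw [← hxe]
    simp [dt] at h1 h2 ⊢
    linarith

theorem subset_Pol {K : Set (ℝ × ℝ)} (hK : IsCompact K) : K ⊆ Pol N (smp N K) :=
  fun _ hx k => le_supp hK (φ := dtL (u N k)) hx

/-- The planar inequality for polygons. -/
theorem polygon_logBM {a b : ℤ → ℝ} (ha : Adm N a) (hb : Adm N b) (hN : 2 ≤ N) {lam : ℝ}
    (h0 : 0 ≤ lam) (h1 : lam ≤ 1) :
    volume (Pol N a) ^ (1 - lam) * volume (Pol N b) ^ lam
      ≤ volume (Pol N fun k => a k ^ (1 - lam) * b k ^ lam) := by
  set f : ℤ → ℝ := fun k => a k ^ (1 - lam) * b k ^ lam with hf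
  have hfp : ∀ k, f (k + N) = f k := fun k => by simp only [hf, ha.per, hb.per]
  have hf0 : ∀ k, 0 < f k := fun k =>
    mul_pos (Real.rpow_pos_of_pos (ha.pos k) _) (Real.rpow_pos_of_pos (hb.pos k) _)
  set S := Pol N f with hS
  have hSs : Sym S := Pol.sym hN hfp
  have hS0 : S ∈ 𝓝 (0 : ℝ × ℝ) := Pol.nhds hN hfp fun i _ => by simpa [dt] using hf0 _
  set q := smp N S with hqd
  have hq : Adm N q := hSs.smp_adm (Metric.nhds_basis_closedBall.mem_iff.1 hS0) hN
  have hqf : ∀ k, q k ≤ f k := fun k => supp_le ⟨0, mem_of_mem_nhds hS0⟩ fun x hx => hx k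
  have heq : Pol N q = S :=
    Subset.antisymm (fun x hx k => (hx k).trans (hqf k)) (subset_Pol hSs.compact)
  have htight : ∀ k, q k * ell N q k * (Real.log (f k) - Real.log (q k)) = 0 := by
    intro k
    rcases eq_or_lt_of_le (hq.len k) with hl | hl
    · simp [← hl]
    have hfq : f k = q k := by
      refine le_antisymm (not_lt.1 fun hlt => ?_) (hqf k)
      set m := (1 / 2 : ℝ) • vv N q (k - 1) + (1 / 2 : ℝ) • vv N q k
      have hmk : dt (u N k) m = q k := by
        have h2 := dt_u_vv (N := N) q k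
        have h3 := dt_u_vv_pred hN q k
        simp [m, dt] at h2 h3 ⊢; linarith
      have hm : ∀ i ∈ Finset.range (2 * N), dt (u N (i : ℕ)) m < f (i : ℕ) := by
        intro i _
        have e1 := hq.vv_mem hN (k - 1) i
        have e2 := hq.vv_mem hN k i
        rcases eq_or_ne (Real.sin ((((i : ℕ) : ℤ) - k : ℤ) * dl N)) 0 with hz | hz
        · obtain ⟨n, hn⟩ := Real.sin_eq_zero_iff.1 hz
          have hnk : ((i : ℕ) : ℤ) = k + N * n := by
            have h4 : ((((i : ℕ) : ℤ) - k : ℤ) : ℝ) * dl N = ((N * n : ℤ) : ℝ) * dl N := by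
              rw [← hn]; push_cast; rw [← mul_dl hN]; ring
            have h5 : ((i : ℕ) : ℤ) - k = N * n :=
              Int.cast_injective (α := ℝ) (mul_right_cancel₀ (dl_pos hN).ne' h4)
            omega
          rcases Int.even_or_odd n with ⟨r, rfl⟩ | ⟨r, rfl⟩
          · rw [hnk, show k + N * (r + r) = k + 2 * N * r by ring, u_add_two_mul hN, hmk,
              show k + 2 * (N:ℤ) * r = k + (2 * r) * N by ring]
            have h6 : Function.Periodic f (N : ℤ) := hfp
            have h7 := h6.int_mul (2 * r) k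
            simp only [Int.cast_id] at h7
            rw [h7]; exact hlt
          · rw [hnk, show k + N * (2 * r + 1) = k + 2 * N * r + N by ring, u_add_N hN,
              u_add_two_mul hN, hfp]
            refine lt_of_lt_of_le ?_ (hf0 _).le
            have : dt (-u N k) m = -dt (u N k) m := by simp [dt]; ring
            rw [this, hmk]; linarith [hq.pos k]
        · refine lt_of_lt_of_le ?_ (hqf _)
          have hd : dt (u N (i : ℕ)) (vv N q k) ≠ dt (u N (i : ℕ)) (vv N q (k - 1)) := fun hc => by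
            refine hz ?_
            have h2 := vv_sub hN q k
            rw [h2] at hc
            simp [dt, rot, u] at hc
            rw [Int.cast_sub, sub_mul, Real.sin_sub]
            refine (mul_eq_zero.1 ?_).resolve_left hl.ne'
            push_cast
            linear_combination hc
          have : dt (u N (i : ℕ)) m
              = (dt (u N (i : ℕ)) (vv N q (k - 1)) + dt (u N (i : ℕ)) (vv N q k)) / 2 := by
            simp [m, dt]; ring
          rw [this]
          rcases lt_or_gt_of_ne hd with hd | hd <;> linarith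
      obtain ⟨ε, hε, hball⟩ := Metric.mem_nhds_iff.1 (Pol.nhds hN hfp hm)
      have hmem : m + (ε / 2) • u N k ∈ S := hball (by
        rw [Metric.mem_ball, dist_eq_norm, add_sub_cancel_left, norm_smul, Real.norm_eq_abs,
          abs_of_pos (half_pos hε)]
        have : ‖u N k‖ ≤ 1 := by
          rw [Prod.norm_def]; exact max_le (abs_cos_le_one _) (abs_sin_le_one _)
        calc ε / 2 * ‖u N k‖ ≤ ε / 2 * 1 := mul_le_mul_of_nonneg_left this (half_pos hε).le
          _ < ε := by linarith)
      have h5 : dt (u N k) (m + (ε / 2) • u N k) ≤ q k := subset_Pol hSs.compact hmem k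
      have h6 := u_unit (N := N) k
      simp [dt] at h5 hmk
      nlinarith
    rw [hfq, sub_self, mul_zero]
  have hA := logMinkowski hq ha hN
  have hB := logMinkowski hq hb hN
  have hzero : (1 - lam) * (∑ i ∈ Finset.range N, q i * ell N q i * (Real.log (a i) - Real.log (q i)))
      + lam * (∑ i ∈ Finset.range N, q i * ell N q i * (Real.log (b i) - Real.log (q i))) = 0 := by
    rw [Finset.mul_sum, Finset.mul_sum, ← Finset.sum_add_distrib]
    refine Finset.sum_eq_zero fun i _ => ?_
    have := htight i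
    simp only [hf] at this
    rw [Real.log_mul (Real.rpow_pos_of_pos (ha.pos _) _).ne' (Real.rpow_pos_of_pos (hb.pos _) _).ne',
      Real.log_rpow (ha.pos _), Real.log_rpow (hb.pos _)] at this
    linear_combination this
  have hba := ha.B_pos hN
  have hbb := hb.B_pos hN
  have hbq := hq.B_pos hN
  have hlog : (1 - lam) * Real.log (B N a a) + lam * Real.log (B N b b) ≤ Real.log (B N q q) := by
    refine le_of_mul_le_mul_left ?_ (half_pos hbq)
    linear_combination (1 - lam) * hA + lam * hB + hzero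
  have hreal : B N a a ^ (1 - lam) * B N b b ^ lam ≤ B N q q := by
    rw [Real.rpow_def_of_pos hba, Real.rpow_def_of_pos hbb, ← Real.exp_add]
    calc _ ≤ Real.exp (Real.log (B N q q)) := Real.exp_le_exp.2 (by linarith)
      _ = _ := Real.exp_log hbq
  rw [← heq, ha.volume_eq hN, hb.volume_eq hN, hq.volume_eq hN,
    ENNReal.mul_rpow_of_nonneg _ _ (by linarith), ENNReal.mul_rpow_of_nonneg _ _ h0,
    mul_mul_mul_comm, ← ENNReal.rpow_add _ _ κ_ne_zero κ_ne_top, sub_add_cancel, ENNReal.rpow_one,
    ENNReal.ofReal_rpow_of_pos hba, ENNReal.ofReal_rpow_of_pos hbb,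
    ← ENNReal.ofReal_mul (Real.rpow_nonneg hba.le _)]
  exact mul_le_mul' (ENNReal.ofReal_le_ofReal hreal) le_rfl

theorem interior_of_volume {E : Type*} [NormedAddCommGroup E] [NormedSpace ℝ E]
    [FiniteDimensional ℝ E] [MeasurableSpace E] [BorelSpace E] (μ : Measure E) [μ.IsAddHaarMeasure]
    {K : Set E} (hK : Sym K) (h : μ K ≠ 0) : ∃ r > 0, Metric.closedBall (0 : E) r ⊆ K := by
  refine hK.ball (nonempty_iff_ne_empty.2 fun he => h ?_)
  have := hK.conv.addHaar_frontier μ
  rwa [hK.compact.isClosed.frontier_eq, he, sdiff_empty] at this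

/-- **Planar log-Brunn–Minkowski inequality** (Böröczky–Lutwak–Yang–Zhang). -/
theorem planar {K L : Set (ℝ × ℝ)} (hK : Sym K) (hL : Sym L) {lam : ℝ} (h0 : 0 < lam)
    (h1 : lam < 1) :
    volume K ^ (1 - lam) * volume L ^ lam ≤ volume (logSum lam K L) := by
  rcases eq_or_ne (volume K) 0 with hK0 | hK0
  · simp [hK0, ENNReal.zero_rpow_of_pos (sub_pos.2 h1)]
  rcases eq_or_ne (volume L) 0 with hL0 | hL0
  · simp [hL0, ENNReal.zero_rpow_of_pos h0]
  have hKb := interior_of_volume volume hK hK0
  have hLb := interior_of_volume volume hL hL0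
  set S : ℕ → Set (ℝ × ℝ) := fun p =>
    Pol (2 ^ (p + 1)) fun k => smp (2 ^ (p + 1)) K k ^ (1 - lam) * smp (2 ^ (p + 1)) L k ^ lam
  have hN : ∀ p : ℕ, 2 ≤ 2 ^ (p + 1) := fun p => by
    calc 2 = 2 ^ 1 := rfl
      _ ≤ 2 ^ (p + 1) := Nat.pow_le_pow_right two_pos (by omega)
  have hlb : ∀ p, volume K ^ (1 - lam) * volume L ^ lam ≤ volume (S p) := fun p =>
    (mul_le_mul' (ENNReal.rpow_le_rpow (measure_mono (subset_Pol hK.compact)) (sub_nonneg.2 h1.le))
      (ENNReal.rpow_le_rpow (measure_mono (subset_Pol hL.compact)) h0.le)).trans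
      (polygon_logBM (hK.smp_adm hKb (hN p)) (hL.smp_adm hLb (hN p)) (hN p) h0.le h1.le)
  have hanti : Antitone S := by
    refine antitone_nat_of_succ_le fun p x hx k => ?_
    have e : u (2 ^ (p + 1 + 1)) (2 * k) = u (2 ^ (p + 1)) k := by
      simp only [u, dl, pow_succ]; push_cast; congr 2 <;> field_simp
    have := hx (2 * k)
    simp only [smp, e] at this ⊢
    exact this
  have hSs : ∀ p, Sym (S p) := fun p => Pol.sym (hN p) fun k => by
    simp only [(hK.smp_adm hKb (hN p)).per, (hL.smp_adm hLb (hN p)).per]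
  have hlim := tendsto_measure_iInter_atTop (μ := (volume : Measure (ℝ × ℝ)))
    (fun p => (hSs p).compact.measurableSet.nullMeasurableSet) hanti
    ⟨0, (hSs 0).compact.measure_lt_top.ne⟩
  refine (ge_of_tendsto' hlim hlb).trans (measure_mono fun x hx φ => ?_)
  rw [mem_iInter] at hx
  set hh : Set (ℝ × ℝ) → ℝ → ℝ := fun A θ => supp A (dtL (Real.cos θ, Real.sin θ))
  have hc : ∀ A, IsCompact A → Continuous (hh A) := fun A hA =>
    IsCompact.continuous_sSup hA (f := fun θ y => dtL (Real.cos θ, Real.sin θ) y)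
      (by simp only [Function.HasUncurry.uncurry, dtL_apply, dt]; fun_prop)
  have hall : ∀ θ, dt (Real.cos θ, Real.sin θ) x ≤ hh K θ ^ (1 - lam) * hh L θ ^ lam := by
    intro θ
    set θs : ℕ → ℝ := fun p => (⌊θ / dl (2 ^ (p + 1))⌋ : ℤ) * dl (2 ^ (p + 1))
    have hd : Tendsto (fun p => dl (2 ^ (p + 1))) atTop (𝓝 0) := by
      have h2 : Tendsto (fun p : ℕ => π / 2 * (1 / 2 : ℝ) ^ p) atTop (𝓝 0) := by
        simpa using (tendsto_pow_atTop_nhds_zero_of_lt_one (by norm_num : (0:ℝ) ≤ 1/2)
          (by norm_num)).const_mul (π / 2)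
      refine h2.congr fun p => ?_
      simp only [dl, pow_succ, one_div, inv_pow]; push_cast; field_simp
    have hlimθ : Tendsto θs atTop (𝓝 θ) := by
      refine tendsto_of_tendsto_of_tendsto_of_le_of_le (g := fun p => θ - dl (2 ^ (p + 1)))
        (h := fun _ => θ) (by simpa using tendsto_const_nhds.sub hd) tendsto_const_nhds
        (fun p => ?_) (fun p => ?_) <;>
      · have hp := dl_pos (hN p)
        have := Int.floor_le (θ / dl (2 ^ (p + 1)))
        have := Int.lt_floor_add_one (θ / dl (2 ^ (p + 1)))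
        rw [le_div_iff₀ hp] at *
        rw [div_lt_iff₀ hp] at *
        simp only [θs]; linarith
    have hcont : Continuous fun t : ℝ => dt (Real.cos t, Real.sin t) x := by unfold dt; fun_prop
    refine le_of_tendsto_of_tendsto' (hcont.continuousAt.tendsto.comp hlimθ)
      ((((hc K hK.compact).rpow_const fun _ => Or.inr (by linarith)).mul
        ((hc L hL.compact).rpow_const fun _ => Or.inr h0.le)).continuousAt.tendsto.comp hlimθ)
      fun p => ?_
    exact hx p ⌊θ / dl (2 ^ (p + 1))⌋
  set z : ℂ := ⟨φ (1, 0), φ (0, 1)⟩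
  have hφ : φ = ‖z‖ • dtL (Real.cos z.arg, Real.sin z.arg) := by
    refine LinearMap.ext fun y => ?_
    have e : y = y.1 • ((1, 0) : ℝ × ℝ) + y.2 • ((0, 1) : ℝ × ℝ) := by simp
    conv_lhs => rw [e, map_add, map_smul, map_smul]
    simp only [LinearMap.smul_apply, dtL_apply, dt, smul_eq_mul, mul_add, ← mul_assoc,
      Complex.norm_mul_cos_arg, Complex.norm_mul_sin_arg, z]
    ring
  have hne : ∀ {A : Set (ℝ × ℝ)}, volume A ≠ 0 → A.Nonempty := fun h =>
    nonempty_of_measure_ne_zero h
  have hhom : ∀ {A : Set (ℝ × ℝ)}, supp A φ = ‖z‖ * hh A z.arg := fun {A} => by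
    rw [hφ]
    simp only [supp, hh]
    rw [← smul_eq_mul, ← Real.sSup_smul_of_nonneg (norm_nonneg z), ← image_smul, image_image]
    rfl
  rw [hhom, hhom, Real.mul_rpow (norm_nonneg _) (hK.supp_nonneg (hne hK0) _),
    Real.mul_rpow (norm_nonneg _) (hL.supp_nonneg (hne hL0) _), mul_mul_mul_comm,
    ← Real.rpow_add' (norm_nonneg _) (by norm_num), sub_add_cancel, Real.rpow_one, hφ,
    LinearMap.smul_apply, dtL_apply, smul_eq_mul]
  exact mul_le_mul_of_nonneg_left (hall _) (norm_nonneg _)

end Vale.Agent.P227
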